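import Crest.Agent.R350.QD

/-!
Row 350: conversion between the working models and the models of the statement.
-/

set_option autoImplicit false

namespace Crest.Agent.R350

open Finset Matrix Kronecker Crest.MathPhysics.Query

section Quantum
variable {n w : ℕ}

/-- Real runs in the model of the statement. -/
def stateR (U : ℕ → Matrix (QIdx n w) (QIdx n w) ℝ) (x : Fin n → Bool) (ψ : QIdx n w → ℝ) :
    ℕ → QIdx n w → ℝ
  | 0 => U 0 *ᵥ ψ
  | t + 1 => U (t + 1) *ᵥ fun e => stateR U x ψ t (e.1, xor e.2.1 (x e.1), e.2.2)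

theorem stateAfter_ofReal (U : ℕ → Matrix (QIdx n w) (QIdx n w) ℝ) (x : Fin n → Bool)
    (ψ : QIdx n w → ℝ) (t : ℕ) :
    stateAfter (fun t => (U t).map ((↑) : ℝ → ℂ)) x (fun e => (ψ e : ℂ)) t =
      fun e => (stateR U x ψ t e : ℂ) := by
  induction t with
  | zero => funext e; simp [stateAfter, stateR, mulVec, dotProduct]
  | succ t ih => funext e; simp [stateAfter, stateR, mulVec, dotProduct, ih, oracle]

theorem stateR_congr {U U' : ℕ → Matrix (QIdx n w) (QIdx n w) ℝ} (x : Fin n → Bool)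
    (ψ : QIdx n w → ℝ) (t : ℕ) (h : ∀ s ≤ t, U' s = U s) : stateR U' x ψ t = stateR U x ψ t := by
  induction t with
  | zero => simp [stateR, h 0 le_rfl]
  | succ t ih => simp only [stateR, h (t + 1) le_rfl, ih fun s hs => h s (by omega)]

theorem stateR_update (U : ℕ → Matrix (QIdx n w) (QIdx n w) ℝ) (x : Fin n → Bool)
    (ψ : QIdx n w → ℝ) (t : ℕ) (P : Matrix (QIdx n w) (QIdx n w) ℝ) :
    stateR (Function.update U t (P * U t)) x ψ t = P *ᵥ stateR U x ψ t := by
  cases t with
  | zero => simp [stateR]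
  | succ t =>
    simp only [stateR, Function.update_self, mulVec_mulVec]
    rw [stateR_congr (U := U) x ψ t fun s hs => Function.update_of_ne (by omega) _ _]

theorem orth_reindex {W W' : Type} [Fintype W] [DecidableEq W] [Fintype W'] [DecidableEq W']
    (e : W' ≃ W) {U : Matrix W W ℝ} (h : Orth U) : Orth (U.submatrix e e) := by
  unfold Orth at *
  rw [transpose_submatrix, submatrix_mul_equiv, h, submatrix_one_equiv]

theorem exists_run {W : Type} [Fintype W] [DecidableEq W] (e : Fin w ≃ W) (i0 : Fin n) {q : ℕ}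
    {V : (Fin n → Bool) → Matrix W W ℝ} (h : QU q V) {φ : Fin n × Bool → ℝ} (hφ : φ ⬝ᵥ φ = 1) :
    ∃ U : ℕ → Matrix (QIdx n w) (QIdx n w) ℝ, (∀ t, Orth (U t)) ∧ ∀ x (ψ : W → ℝ),
      stateR U x (fun s => φ (s.1, s.2.1) * ψ (e s.2.2)) q =
        fun s => φ (s.1, s.2.1) * (V x *ᵥ ψ) (e s.2.2) := by
  let E : QIdx n w ≃ (Fin n × Bool) × W :=
    (Equiv.prodAssoc _ _ _).symm.trans (Equiv.prodCongr (Equiv.refl _) e)
  have hE : ∀ (M : Matrix ((Fin n × Bool) × W) ((Fin n × Bool) × W) ℝ)
      (v : (Fin n × Bool) × W → ℝ), M.submatrix E E *ᵥ (fun s => v (E s)) =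
        fun s => (M *ᵥ v) (E s) := fun M v => by
    rw [submatrix_mulVec_equiv,
      show ((fun s => v (E s)) ∘ E.symm) = v from funext fun s => by simp]
    rfl
  induction q generalizing V with
  | zero =>
    obtain ⟨U, hU, hV⟩ := h
    refine ⟨fun _ => ((1 : Matrix _ _ ℝ) ⊗ₖ U).submatrix E E,
      fun _ => orth_reindex E hU.one_kron, fun x ψ => ?_⟩
    have := hE ((1 : Matrix _ _ ℝ) ⊗ₖ U) fun s => φ s.1 * ψ s.2
    rw [one_kron_mulVec] at this
    rw [hV]
    exact this
  | succ q ih =>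
    obtain ⟨U, α, V', hU, hV', hV⟩ := h
    obtain ⟨Y, hY, eY⟩ := ih hV'
    have h2 : (√2)⁻¹ * (√2)⁻¹ = (1 / 2 : ℝ) := by
      rw [← mul_inv, Real.mul_self_sqrt (by norm_num)]; norm_num
    let τ : Option (Fin n) → Fin n × Bool → ℝ := fun o s =>
      match o with
      | none => if s.1 = i0 then (√2)⁻¹ else 0
      | some i => if s.1 = i then (√2)⁻¹ * sg s.2 else 0
    have hτ : ∀ o, τ o ⬝ᵥ τ o = 1 := by
      rintro (_ | i)
      · simp [τ, dotProduct, Fintype.sum_prod_type, h2]; norm_num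
      · simp [τ, dotProduct, Fintype.sum_prod_type, sg, h2]; norm_num
    have hx : ∀ (x : Fin n → Bool) o i b, τ o (i, xor b (x i)) = sgO x o * τ o (i, b) := by
      rintro x (_ | j) i b
      · simp [τ, sgO]
      · simp only [τ, sgO]
        split_ifs with hj
        · subst hj; cases b <;> cases x i <;> simp [sg]
        · simp
    choose P hP eP using fun o => exists_orth_map hφ (hτ o)
    let B : Matrix ((Fin n × Bool) × W) ((Fin n × Bool) × W) ℝ := blockDiagonal fun z => P (α z)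
    have hB : Orth B := Orth.block fun z => hP _
    have eB : ∀ ψ : W → ℝ, B *ᵥ (fun s => φ s.1 * ψ s.2) = fun s => τ (α s.2) s.1 * ψ s.2 := by
      intro ψ
      funext ⟨s, z⟩
      rw [block_mulVec]
      have : (fun s => φ s * ψ z) = ψ z • φ := by funext s; simp [mul_comm]
      simp only
      rw [this, mulVec_smul, eP]
      simp [mul_comm]
    refine ⟨Function.update (Function.update Y q (B.submatrix E E * Y q)) (q + 1)
      ((((1 : Matrix _ _ ℝ) ⊗ₖ U) * Bᵀ).submatrix E E), fun t => ?_, fun x ψ => ?_⟩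
    · by_cases h1 : t = q + 1
      · rw [h1, Function.update_self]; exact orth_reindex E (hU.one_kron.mul hB.transpose)
      · rw [Function.update_of_ne h1]
        by_cases h2 : t = q
        · rw [h2, Function.update_self]; exact (orth_reindex E hB).mul (hY q)
        · rw [Function.update_of_ne h2]; exact hY t
    · rw [stateR, Function.update_self,
        stateR_congr (U := Function.update Y q (B.submatrix E E * Y q)) x _ q
          fun s hs => Function.update_of_ne (by omega) _ _, stateR_update, eY]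
      have e1 := hE B fun s => φ s.1 * (V' x *ᵥ ψ) s.2
      rw [eB] at e1
      have e2 := hE (((1 : Matrix _ _ ℝ) ⊗ₖ U) * Bᵀ)
        (B *ᵥ fun s => φ s.1 * (ph α x *ᵥ (V' x *ᵥ ψ)) s.2)
      rw [mulVec_mulVec _ _ B, Matrix.mul_assoc, hB, Matrix.mul_one, one_kron_mulVec, eB] at e2
      rw [hV, ← mulVec_mulVec, ← mulVec_mulVec]
      refine Eq.trans ?_ e2
      congr 1
      funext s
      refine (congrFun e1 _).trans ?_
      simp only [E, Equiv.trans_apply, Equiv.prodAssoc_symm_apply, Equiv.prodCongr_apply,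
        Prod.map, Equiv.coe_refl, id, hx, ph, mulVec_diagonal]
      ring

theorem quantumComputes_of_QD {F : (Fin n → Bool) → Bool} {q : ℕ}
    {P : (Fin n → Bool) → Bool → ℝ} (i0 : Fin n) (h : QD q P) (hF : ∀ x, 2 / 3 ≤ P x (F x)) :
    QuantumComputes F q := by
  obtain ⟨W, _, _, ψ, V, out, hψ, hV, eP⟩ := h
  let e : Fin (Fintype.card W) ≃ W := (Fintype.equivFin W).symm
  let φ : Fin n × Bool → ℝ := Pi.single (i0, false) 1
  have hφ : φ ⬝ᵥ φ = 1 := by simp [φ]
  obtain ⟨U, hU, eU⟩ := exists_run e i0 hV hφ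
  have hsum : ∀ g : W → ℝ, ∑ s : QIdx n (Fintype.card W), φ (s.1, s.2.1) ^ 2 * g (e s.2.2) =
      ∑ z, g z := fun g => by
    rw [← e.sum_comp g, ← (Equiv.prodAssoc _ _ _).sum_comp, Fintype.sum_prod_type]
    simp only [Equiv.prodAssoc_apply, ← Finset.mul_sum, ← Finset.sum_mul, Prod.mk.eta]
    rw [sum_sq_eq_dot, hφ, one_mul]
  refine ⟨Fintype.card W, fun t => (U t).map ((↑) : ℝ → ℂ),
    fun s => ((φ (s.1, s.2.1) * ψ (e s.2.2) : ℝ) : ℂ), fun s => out (e s.2.2), fun t => ?_, ?_,
    fun x => ?_⟩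
  · rw [mem_unitaryGroup_iff']
    have := congrArg (fun M : Matrix _ _ ℝ => M.map Complex.ofRealHom) (hU t)
    simp only [Matrix.map_mul] at this
    rw [Matrix.map_one _ (map_zero _) (map_one _)] at this
    rw [← this]
    congr 1
    ext a b
    simp
  · simp only [Complex.norm_real, Real.norm_eq_abs, sq_abs, mul_pow]
    rw [hsum fun z => ψ z ^ 2, sum_sq_eq_dot, hψ]
  · rw [stateAfter_ofReal, eU]
    refine (hF x).trans (le_of_eq ?_)
    rw [eP, ← hsum]
    refine Finset.sum_congr rfl fun s _ => ?_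
    simp only [Complex.norm_real, Real.norm_eq_abs, sq_abs, mul_pow]
    split_ifs <;> simp

end Quantum

theorem QU.reindex {ι ι' W : Type} [Fintype W] [DecidableEq W] (e : ι → ι') {q : ℕ}
    {V : (ι → Bool) → Matrix W W ℝ} (h : QU q V) : QU q fun x : ι' → Bool => V (x ∘ e) := by
  induction q generalizing V with
  | zero => obtain ⟨U, hU, hV⟩ := h; exact ⟨U, hU, fun x => hV _⟩
  | succ q ih =>
    obtain ⟨U, α, V', hU, hV', hV⟩ := h
    refine ⟨U, fun w => (α w).map e, _, hU, ih hV', fun x => ?_⟩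
    simp only [hV, ph]
    congr 3
    funext w
    cases α w <;> rfl

theorem QD.reindex {ι ι' O : Type} [DecidableEq O] (e : ι → ι') {q : ℕ}
    {P : (ι → Bool) → O → ℝ} (h : QD q P) : QD q fun x : ι' → Bool => P (x ∘ e) := by
  obtain ⟨W, _, _, ψ, V, out, hψ, hV, eP⟩ := h
  exact ⟨W, inferInstance, inferInstance, ψ, _, out, hψ, hV.reindex e, fun x o => eP _ o⟩

/-- A decision tree of the statement as a tree over another index type. -/
def toTr {ι : Type} {n : ℕ} (e : Fin n → ι) : DTree n → Tr ι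
  | .answer b => .ans b
  | .read i t₀ t₁ => .rd (e i) (toTr e t₀) (toTr e t₁)

theorem toTr_eval {ι : Type} {n : ℕ} (e : Fin n → ι) (t : DTree n) (x : ι → Bool) :
    (toTr e t).eval x = t.eval (x ∘ e) := by
  induction t with
  | answer b => rfl
  | read i t₀ t₁ h₀ h₁ => simp [toTr, Tr.eval, DTree.eval, h₀, h₁]

theorem toTr_depth {ι : Type} {n : ℕ} (e : Fin n → ι) (t : DTree n) :
    (toTr e t).depth = t.depth := by
  induction t with
  | answer b => rfl
  | read i t₀ t₁ h₀ h₁ => simp [toTr, Tr.depth, DTree.depth, h₀, h₁]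

theorem rc_of_randomized {ι : Type} {n : ℕ} (e : ι ≃ Fin n) {F : (ι → Bool) → Bool} {r : ℕ}
    (h : RandomizedComputes (fun x : Fin n → Bool => F (x ∘ e)) r) : RC F r := by
  obtain ⟨s, p, T, h1, h2, h3, h4⟩ := h
  refine ⟨s, p, fun j => toTr e.symm (T j), h1, h2, fun j => by rw [toTr_depth]; exact h3 j,
    fun x => ?_⟩
  have := h4 (x ∘ e.symm)
  simp only [toTr_eval]
  have e1 : (x ∘ e.symm) ∘ e = x := by funext i; simp
  simpa only [e1] using this

end Crest.Agent.R350
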