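import Mathlib
import Crest.Prelude.Def_QueryComplexity

/-!
Row 350 (S0554): definitions and interface statements of the classical lower bound.
-/

set_option autoImplicit false

namespace Crest.Agent.R350

open Finset

/-- The sign of a bit. -/
def sg (b : Bool) : ℝ := if b then -1 else 1

/-- The indicator of a bit. -/
def ind (b : Bool) : ℝ := if b then 1 else 0

/-- Decision trees over an arbitrary index type. -/
inductive Tr (ι : Type) : Type where
  | ans (b : Bool) : Tr ι
  | rd (i : ι) (t₀ t₁ : Tr ι) : Tr ι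

namespace Tr
variable {ι : Type}

def eval (x : ι → Bool) : Tr ι → Bool
  | ans b => b
  | rd i t₀ t₁ => if x i then t₁.eval x else t₀.eval x

def depth : Tr ι → ℕ
  | ans _ => 0
  | rd _ t₀ t₁ => max t₀.depth t₁.depth + 1

/-- The positions read on input `x`, in order. -/
def qs (x : ι → Bool) : Tr ι → List ι
  | ans _ => []
  | rd i t₀ t₁ => i :: (if x i then t₁.qs x else t₀.qs x)

theorem length_qs_le (x : ι → Bool) (t : Tr ι) : (t.qs x).length ≤ t.depth := by
  induction t with
  | ans b => simp [qs]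
  | rd i t₀ t₁ h₀ h₁ =>
    simp only [qs, depth, List.length_cons]
    split_ifs <;> omega

/-- Inputs that agree on the positions read are treated alike. -/
theorem congr_of_agree {x x' : ι → Bool} (t : Tr ι) (h : ∀ i ∈ t.qs x, x' i = x i) :
    t.qs x' = t.qs x ∧ t.eval x' = t.eval x := by
  induction t with
  | ans b => simp [qs, eval]
  | rd i t₀ t₁ h₀ h₁ =>
    have hi : x' i = x i := h i (by simp [qs])
    simp only [qs, eval, hi] at h ⊢
    split_ifs at h ⊢ with hx
    · have := h₁ fun j hj => h j (by simp [hj]); simp [this.1, this.2]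
    · have := h₀ fun j hj => h j (by simp [hj]); simp [this.1, this.2]

/-- The first `s + 1` positions read are determined by the values at the first `s` of them. -/
theorem take_succ_of_agree {x x' : ι → Bool} (t : Tr ι) (s : ℕ)
    (h : ∀ i ∈ (t.qs x).take s, x' i = x i) : (t.qs x').take (s + 1) = (t.qs x).take (s + 1) := by
  induction t generalizing s with
  | ans b => simp [qs]
  | rd i t₀ t₁ h₀ h₁ =>
    cases s with
    | zero => simp [qs]
    | succ s =>
      have hi : x' i = x i := h i (by simp [qs])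
      simp only [qs, hi, List.take_succ_cons] at h ⊢
      split_ifs at h ⊢ with hx
      · rw [h₁ s fun j hj => h j (by simp [hj])]
      · rw [h₀ s fun j hj => h j (by simp [hj])]

/-- Whether a position is read does not depend on its value. -/
theorem mem_qs_update [DecidableEq ι] (t : Tr ι) (x : ι → Bool) (i : ι) (b : Bool) :
    i ∈ t.qs (Function.update x i b) ↔ i ∈ t.qs x := by
  constructor
  · intro h
    by_contra hc
    rw [(t.congr_of_agree (x := x) (x' := Function.update x i b) fun j hj =>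
      Function.update_of_ne (fun e : j = i => hc (e ▸ hj)) _ _).1] at h
    exact hc h
  · intro h
    by_contra hc
    rw [(t.congr_of_agree (x := Function.update x i b) (x' := x) fun j hj =>
      (Function.update_of_ne (fun e : j = i => hc (e ▸ hj)) _ _).symm).1] at h
    exact hc h

end Tr

/-- Probability weights on a finite type. -/
def IsDist {α : Type} [Fintype α] (D : α → ℝ) : Prop := (∀ a, 0 ≤ D a) ∧ ∑ a, D a = 1

/-- Randomized decision trees of depth at most `d` compute `F` with error at most `1/3`. -/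
def RC {ι : Type} (F : (ι → Bool) → Bool) (d : ℕ) : Prop :=
  ∃ (s : ℕ) (p : Fin s → ℝ) (T : Fin s → Tr ι),
    (∀ j, 0 ≤ p j) ∧ ∑ j, p j = 1 ∧ (∀ j, (T j).depth ≤ d) ∧
      ∀ x, 2 / 3 ≤ ∑ j, if (T j).eval x = F x then p j else 0

/-- The partial derivative `∂_T` at `p` of the multilinear extension of `f`
(for `T = ∅`: the mean of `f` when bit `i` has sign mean `p i`, independently). -/
noncomputable def Dv {ι : Type} [Fintype ι] [DecidableEq ι] (f : (ι → Bool) → ℝ) (T : Finset ι)
    (p : ι → ℝ) : ℝ :=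
  ∑ z : ι → Bool, f z * ∏ i, if i ∈ T then sg (z i) / 2 else (1 + sg (z i) * p i) / 2

/-- One position in each layer. -/
def tset {k : ℕ} {β : Type} [DecidableEq β] (a : Fin (k + 1) → β) : Finset (Fin (k + 1) × β) :=
  univ.image fun l => (l, a l)

/-- The `(k+1)`-fold forrelation of `z`, twisted by `χ` in layer `0`. -/
noncomputable def amp {k : ℕ} {β : Type} [Fintype β] [DecidableEq β] (U : β → β → ℝ) (χ : β → ℝ)
    (z : Fin (k + 1) × β → Bool) : ℝ :=
  (∑ a : Fin (k + 1) → β, χ (a 0) * (∏ l, sg (z (l, a l))) *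
    ∏ i : Fin k, U (a i.castSucc) (a i.succ)) / Fintype.card β

/-- Level-`j` Fourier growth of decision trees (under mildly biased product measures). -/
def LevelStmt : Prop :=
  ∀ j r : ℕ, 1 ≤ r → ∃ C : ℝ, ∀ (ι α : Type) [Fintype ι] [DecidableEq ι] (A : Finset α)
    (T : α → Finset ι) (t : Tr ι) (D : ℕ) (p : ι → ℝ), Set.InjOn T A →
    (∀ a ∈ A, (T a).card = j) → t.depth ≤ D → 1 ≤ D → (∀ i, |p i| ≤ 1 / 2) →
    (∑ a ∈ A, |Dv (fun z => ind (t.eval z)) (T a) p|) ^ (2 * r) ≤
      C * ((D : ℝ) ^ r * Fintype.card ι) ^ j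

/-- Forrelated distributions that differ from a reference distribution only at level `k + 1`. -/
def SteinStmt : Prop :=
  ∀ k : ℕ, 1 ≤ k → ∃ η : ℝ, 0 < η ∧ ∀ (β : Type) [Fintype β] [DecidableEq β] [Nonempty β]
    (U : β → β → ℝ), (∀ b c, U b c ^ 2 = 1 / Fintype.card β) →
    ∃ D0 : (Fin (k + 1) × β → Bool) → ℝ, IsDist D0 ∧ ∀ χ : β → ℝ, (∀ b, χ b ^ 2 = 1) →
      ∃ D1 : (Fin (k + 1) × β → Bool) → ℝ, IsDist D1 ∧ η ≤ ∑ z, D1 z * amp U χ z ∧
        ∀ (f : (Fin (k + 1) × β → Bool) → ℝ) (Λ : ℝ),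
          (∀ p : Fin (k + 1) × β → ℝ, (∀ i, |p i| ≤ 1 / 2) →
            ∑ a : Fin (k + 1) → β, |Dv f (tset a) p| ≤ Λ) →
          |∑ z, D1 z * f z - ∑ z, D0 z * f z| ≤ Λ / √(Fintype.card β) ^ k

/-- Input positions: grid (column, row), hints (column, position), cells (column, address, slot). -/
abbrev Ix (γ β κ σ : Type) : Type := (γ × γ) ⊕ (γ × κ) ⊕ (γ × β × σ)

/-- An input from its three parts. -/
def mk {γ β κ σ : Type} (z : γ → γ → Bool) (y : γ → κ → Bool) (w : γ → β → σ → Bool) :
    Ix γ β κ σ → Bool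
  | .inl q => z q.1 q.2
  | .inr (.inl q) => y q.1 q.2
  | .inr (.inr q) => w q.1 q.2.1 q.2.2

/-- The hybrid argument: a randomized algorithm must read the hidden cell. -/
def HybridStmt : Prop :=
  ∀ (γ β κ σ : Type) [Fintype γ] [DecidableEq γ] [Nonempty γ] [Fintype β] [DecidableEq β]
    [Nonempty β] [Fintype κ] [DecidableEq κ] [DecidableEq σ]
    (F : (Ix γ β κ σ → Bool) → Bool) (Good : β → (κ → Bool) → Bool)
    (D0 : (κ → Bool) → ℝ) (D1 : β → (κ → Bool) → ℝ) (η δ p : ℝ) (D d : ℕ),
    (∀ z y, F (mk z y fun _ _ _ => false) = false) →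
    (∀ (c : γ) (A : β) (z : γ → γ → Bool) (y : γ → κ → Bool), (∀ i, z c i = true) →
      (∀ j, j ≠ c → ∃ i, z j i = false) → Good A (y c) = true →
      ∃ w : σ → Bool, F (mk z y fun c' A' s => if c' = c ∧ A' = A then w s else false) = true) →
    IsDist D0 → (∀ A, IsDist (D1 A)) → (∀ A, η ≤ ∑ y, D1 A y * ind (Good A y)) →
    (∀ (A : β) (t : Tr κ), t.depth ≤ D →
      ∑ y, D1 A y * ind (t.eval y) ≤ ∑ y, D0 y * ind (t.eval y) + δ) →
    0 ≤ p → p ≤ 1 → RC F d →
    (η - Fintype.card γ * (1 - p) ^ Fintype.card γ) / 3 ≤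
      δ + (d : ℝ) / Fintype.card γ * (1 / Fintype.card β + p + 1 / (D + 1))

end Crest.Agent.R350
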