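import Crest.Agent.R350.QD

/-!
Row 350: the forrelation circuit and locally checkable transcripts of the fast Hadamard transform.
-/

set_option autoImplicit false

namespace Crest.Agent.R350

open Finset Matrix

/-- The layered products, computed from the last layer to the first. -/
def RR {R β : Type} [CommRing R] [Fintype β] (K : β → β → R) :
    (k : ℕ) → (Fin (k + 1) → β → R) → β → R
  | 0, z, b => z 0 b
  | k + 1, z, b => z 0 b * ∑ c, K b c * RR K k (Fin.tail z) c

theorem sum_RR {R β : Type} [CommRing R] [Fintype β] [DecidableEq β] (K : β → β → R) (k : ℕ)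
    (z : Fin (k + 1) → β → R) (χ : β → R) :
    ∑ a : Fin (k + 1) → β, χ (a 0) * (∏ l, z l (a l)) * ∏ i : Fin k, K (a i.castSucc) (a i.succ) =
      ∑ b, χ b * RR K k z b := by
  induction k generalizing χ with
  | zero =>
    rw [← (Equiv.funUnique (Fin 1) β).symm.sum_comp]
    simp [RR]
  | succ k ih =>
    rw [← (Fin.consEquiv fun _ => β).sum_comp, Fintype.sum_prod_type]
    refine Finset.sum_congr rfl fun b _ => ?_
    have := ih (Fin.tail z) fun c => K b c
    rw [RR, ← this, Finset.mul_sum, Finset.mul_sum]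
    refine Finset.sum_congr rfl fun a _ => ?_
    rw [Fin.prod_univ_succ (n := k + 1), Fin.prod_univ_succ (n := k)
      (fun i : Fin (k + 1) => K ((Fin.consEquiv fun _ => β) (b, a) i.castSucc)
        ((Fin.consEquiv fun _ => β) (b, a) i.succ))]
    simp only [Fin.consEquiv_apply, Fin.cons_zero, Fin.cons_succ, Fin.castSucc_zero, Fin.tail,
      ← Fin.succ_castSucc]
    ring

abbrev Bv (n : ℕ) : Type := Fin n → Bool

def sgZ (b : Bool) : ℤ := if b then -1 else 1

theorem cast_sgZ (b : Bool) : (sgZ b : ℝ) = sg b := by cases b <;> simp [sgZ, sg]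

variable {n : ℕ}

/-- Entries of the Hadamard matrix. -/
def chi (a b : Bv n) : ℤ := ∏ e, sgZ (a e && b e)

theorem chi_mul_self (a b : Bv n) : chi a b * chi a b = 1 := by
  rw [chi, ← Finset.prod_mul_distrib]
  exact Finset.prod_eq_one fun e _ => by cases a e && b e <;> simp [sgZ]

theorem abs_chi (a b : Bv n) : |chi a b| = 1 := by
  have := chi_mul_self a b
  rcases Int.eq_one_or_neg_one_of_mul_eq_one this with h | h <;> simp [h]

theorem sum_chi (b c : Bv n) : ∑ a, chi a b * chi a c = if b = c then 2 ^ n else 0 := by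
  simp only [chi, ← Finset.prod_mul_distrib]
  rw [← Fintype.prod_sum (fun e (t : Bool) => sgZ (t && b e) * sgZ (t && c e))]
  split_ifs with h
  · subst h
    rw [Finset.prod_congr rfl (g := fun _ => 2) fun e _ => by cases b e <;> simp [sgZ]]
    simp
  · obtain ⟨e, he⟩ := Function.ne_iff.1 h
    refine Finset.prod_eq_zero (Finset.mem_univ e) ?_
    revert he
    cases b e <;> cases c e <;> simp [sgZ]

/-- The normalised Hadamard matrix. -/
noncomputable def Had (n : ℕ) (a b : Bv n) : ℝ := chi a b / √(2 ^ n)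

theorem sqrt_mul (n : ℕ) : √(2 ^ n) * √(2 ^ n) = (2 : ℝ) ^ n := Real.mul_self_sqrt (by positivity)

theorem had_sq (a b : Bv n) : Had n a b ^ 2 = 1 / Fintype.card (Bv n) := by
  have h : ((chi a b : ℝ)) * chi a b = 1 := by exact_mod_cast chi_mul_self a b
  rw [Had, div_pow, sq, sq, h, sqrt_mul]
  simp

theorem had_orth : Orth (Matrix.of (Had n)) := by
  ext b c
  have h : ∑ a, (chi a b : ℝ) * chi a c = if b = c then 2 ^ n else 0 := by
    exact_mod_cast sum_chi b c
  simp only [mul_apply, transpose_apply, of_apply, Had, div_mul_div_comm, ← Finset.sum_div, h, sqrt_mul,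
    one_apply]
  split_ifs <;> simp

theorem RR_had (k : ℕ) (z : Fin (k + 1) → Bv n → ℤ) (b : Bv n) :
    RR (Had n) k (fun l c => (z l c : ℝ)) b = (RR chi k z b : ℤ) / √(2 ^ n) ^ k := by
  induction k generalizing b with
  | zero => simp [RR]
  | succ k ih =>
    have := fun c => ih (Fin.tail z) c
    simp only [RR]
    push_cast
    rw [mul_div_assoc, Finset.sum_div]
    congr 1
    refine Finset.sum_congr rfl fun c _ => ?_
    rw [show (Fin.tail fun l c => (z l c : ℝ)) = fun l c => ((Fin.tail z l c : ℤ) : ℝ) from rfl,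
      this, Had, pow_succ]
    ring

/-- The integer whose normalisation is the amplitude at the address `A`. -/
def ampZ (k : ℕ) (y : Fin (k + 1) × Bv n → Bool) (A : Bv n) : ℤ :=
  ∑ b, chi A b * RR chi k (fun l c => sgZ (y (l, c))) b

theorem amp_eq (k : ℕ) (y : Fin (k + 1) × Bv n → Bool) (A : Bv n) :
    amp (Had n) (fun b => (chi A b : ℝ)) y = ampZ k y A / (2 ^ n * √(2 ^ n) ^ k) := by
  rw [amp, sum_RR (Had n) k (fun l c => sg (y (l, c))) fun b => (chi A b : ℝ)]
  simp only [← cast_sgZ, RR_had k fun l c => sgZ (y (l, c)), ampZ]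
  push_cast
  rw [Finset.sum_div, Finset.sum_div]
  refine Finset.sum_congr rfl fun b _ => ?_
  simp only [Fintype.card_pi, Fintype.card_bool, Finset.prod_const, Finset.card_univ,
    Fintype.card_fin]
  push_cast
  ring

theorem exists_circuit {ι : Type} (k : ℕ) (pos : Fin (k + 1) → Bv n → ι) :
    ∃ V : (ι → Bool) → Matrix (Bv n) (Bv n) ℝ, QU (k + 1) V ∧ ∀ x (c : ℝ),
      V x *ᵥ (fun _ => c) = fun b => c * RR (Had n) k (fun l b => sg (x (pos l b))) b := by
  induction k with
  | zero =>
    refine ⟨_, QU.phase fun b => some (pos 0 b), fun x c => ?_⟩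
    funext b
    simp [ph, mulVec_diagonal, RR, sgO, mul_comm]
  | succ k ih =>
    obtain ⟨V, hV, e⟩ := ih (Fin.tail pos)
    refine ⟨_, (QU.phase fun b => some (pos 0 b)).mul (hV.const_mul had_orth), fun x c => ?_⟩
    funext b
    rw [← mulVec_mulVec, ← mulVec_mulVec, e, ph, mulVec_diagonal]
    simp only [RR, sgO, mulVec, dotProduct, Finset.mul_sum, of_apply]
    refine Finset.sum_congr rfl fun c' _ => ?_
    rw [show (Fin.tail fun l b => sg (x (pos l b))) = fun l b => sg (x (Fin.tail pos l b)) from rfl]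
    ring

/-- The forrelation circuit outputs the address `A` with probability `amp ^ 2`. -/
theorem qd_forr {ι : Type} (k : ℕ) (pos : Fin (k + 1) × Bv n → ι) :
    QD (k + 1) fun (x : ι → Bool) (A : Bv n) =>
      amp (Had n) (fun b => (chi A b : ℝ)) (fun q => x (pos q)) ^ 2 := by
  obtain ⟨V, hV, e⟩ := exists_circuit k fun l b => pos (l, b)
  have h0 : √((2 : ℝ) ^ n) ≠ 0 := by positivity
  refine ⟨Bv n, inferInstance, inferInstance, fun _ => (√(2 ^ n))⁻¹, _, id, ?_,
    hV.const_mul had_orth, fun x A => ?_⟩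
  · simp only [dotProduct, ← mul_inv, sqrt_mul]
    simp
  · simp only [id, Finset.sum_ite_eq', Finset.mem_univ, if_true]
    congr 1
    rw [← mulVec_mulVec, e, amp, sum_RR (Had n) k (fun l c => sg (x (pos (l, c))))
      fun b => (chi A b : ℝ)]
    simp only [mulVec, dotProduct, Finset.sum_div, of_apply]
    refine Finset.sum_congr rfl fun b _ => ?_
    simp only [Fintype.card_pi, Fintype.card_bool, Finset.prod_const, Finset.card_univ,
      Fintype.card_fin, Had]
    push_cast
    rw [← sqrt_mul n, Real.sqrt_mul_self (Real.sqrt_nonneg _)]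
    field_simp

/-! ### The fast transform -/

/-- The kernel after the first `j` butterfly stages. -/
def Kp (j : ℕ) (b c : Bv n) : ℤ :=
  ∏ e, if e.val < j then sgZ (b e && c e) else if b e = c e then 1 else 0

theorem Kp_zero (b c : Bv n) : Kp 0 b c = if b = c then 1 else 0 := by
  simp only [Kp, Nat.not_lt_zero, if_false]
  rw [Finset.prod_ite_zero]
  simp [funext_iff]

theorem Kp_last (b c : Bv n) : Kp n b c = chi b c := by
  simp [Kp, chi]

theorem Kp_succ (j : Fin n) (b c : Bv n) : Kp (j + 1) b c =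
    Kp j (Function.update b j false) c + sgZ (b j) * Kp j (Function.update b j true) c := by
  have key : ∀ t, Kp j (Function.update b j t) c = (if t = c j then 1 else 0) *
      ∏ e ∈ univ.erase j, if e.val < j + 1 then sgZ (b e && c e)
        else if b e = c e then 1 else 0 := by
    intro t
    rw [Kp, ← Finset.mul_prod_erase _ _ (Finset.mem_univ j)]
    simp only [lt_irrefl, if_false, Function.update_self]
    congr 1
    refine Finset.prod_congr rfl fun e he => ?_
    have he' := Finset.ne_of_mem_erase he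
    have : e.val < j + 1 ↔ e.val < j := by have := Fin.val_ne_of_ne he'; omega
    simp only [Function.update_of_ne he', this]
  rw [key, key, Kp, ← Finset.mul_prod_erase _ _ (Finset.mem_univ j)]
  simp only [Nat.lt_succ_self, if_true]
  cases b j <;> cases c j <;> simp [sgZ]

theorem abs_Kp_le (j : ℕ) (b c : Bv n) : |Kp j b c| ≤ 1 := by
  rw [Kp, Finset.abs_prod]
  refine Finset.prod_le_one (fun _ _ => abs_nonneg _) fun e _ => ?_
  split_ifs
  · cases b e && c e <;> simp [sgZ]
  · simp
  · simp

/-- One butterfly. -/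
def bf (v : Bv n → ℤ) (j : Fin n) (b : Bv n) : ℤ :=
  v (Function.update b j false) + sgZ (b j) * v (Function.update b j true)

theorem fft_sound (t : Fin (n + 1) → Bv n → ℤ) (h : ∀ j b, t j.succ b = bf (t j.castSucc) j b)
    (b : Bv n) : t (Fin.last n) b = ∑ c, chi b c * t 0 c := by
  have key : ∀ (j : Fin (n + 1)) b, t j b = ∑ c, Kp j b c * t 0 c := by
    intro j
    induction j using Fin.induction with
    | zero => intro b; simp [Kp_zero]
    | succ j ih =>
      intro b
      rw [h, bf, ih, ih, Finset.mul_sum, ← Finset.sum_add_distrib]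
      refine Finset.sum_congr rfl fun c _ => ?_
      rw [Fin.val_succ, Kp_succ, Fin.val_castSucc]
      ring
  rw [key]
  simp [Kp_last]

theorem fft_complete (v : Bv n → ℤ) {m : ℤ} (hv : ∀ c, |v c| ≤ m) :
    ∃ t : Fin (n + 1) → Bv n → ℤ, t 0 = v ∧ (∀ j b, t j.succ b = bf (t j.castSucc) j b) ∧
      ∀ j b, |t j b| ≤ 2 ^ n * m := by
  refine ⟨fun j b => ∑ c, Kp j b c * v c, ?_, fun j b => ?_, fun j b => ?_⟩
  · funext b; simp [Kp_zero]
  · simp only [bf]
    rw [Finset.mul_sum, ← Finset.sum_add_distrib]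
    refine Finset.sum_congr rfl fun c _ => ?_
    rw [Fin.val_succ, Kp_succ, Fin.val_castSucc]
    ring
  · refine (Finset.abs_sum_le_sum_abs _ _).trans ((Finset.sum_le_sum (g := fun _ => m)
      fun c _ => ?_).trans (by simp))
    rw [abs_mul]
    exact (mul_le_of_le_one_left (abs_nonneg _) (abs_Kp_le _ _ _)).trans (hv c)

/-- Valid transcripts of the layered computation. -/
def TOK (k : ℕ) (z : Fin (k + 1) → Bv n → ℤ) (t : Fin (k + 1) → Fin (n + 1) → Bv n → ℤ) : Prop :=
  (∀ b, t (Fin.last k) 0 b = z (Fin.last k) b) ∧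
    (∀ (i : Fin k) b, t i.castSucc 0 b = z i.castSucc b * t i.succ (Fin.last n) b) ∧
    ∀ l j b, t l j.succ b = bf (t l j.castSucc) j b

theorem TOK.sound {k : ℕ} {z : Fin (k + 1) → Bv n → ℤ}
    {t : Fin (k + 1) → Fin (n + 1) → Bv n → ℤ} (h : TOK k z t) (A : Bv n) :
    t 0 (Fin.last n) A = ∑ b, chi A b * RR chi k z b := by
  induction k generalizing A with
  | zero =>
    rw [fft_sound _ (h.2.2 0)]
    exact Finset.sum_congr rfl fun b _ => by rw [show t 0 0 b = z 0 b from h.1 b, RR]
  | succ k ih =>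
    have h' : TOK k (Fin.tail z) (Fin.tail t) :=
      ⟨fun b => h.1 b, fun i b => h.2.1 i.succ b, fun l j b => h.2.2 l.succ j b⟩
    rw [fft_sound _ (h.2.2 0)]
    refine Finset.sum_congr rfl fun b _ => ?_
    rw [RR, ← ih h' b, show t 0 0 b = _ from h.2.1 0 b]
    rfl

theorem TOK.complete (k : ℕ) (z : Fin (k + 1) → Bv n → ℤ) (hz : ∀ l b, |z l b| ≤ 1) :
    ∃ t : Fin (k + 1) → Fin (n + 1) → Bv n → ℤ, TOK k z t ∧
      ∀ l j b, |t l j b| ≤ (2 ^ n) ^ (k + 1) := by
  induction k with
  | zero =>
    obtain ⟨t, h1, h2, h3⟩ := fft_complete (z 0) (hz 0)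
    exact ⟨fun _ => t, ⟨fun b => congrFun h1 b, fun i => i.elim0, fun _ => h2⟩,
      fun _ j b => by simpa using h3 j b⟩
  | succ k ih =>
    obtain ⟨t, ⟨h1, h2, h3⟩, h4⟩ := ih (Fin.tail z) fun l b => hz _ _
    obtain ⟨s, g1, g2, g3⟩ := fft_complete (fun b => z 0 b * t 0 (Fin.last n) b)
      (m := (2 ^ n) ^ (k + 1)) fun b => by
        rw [abs_mul]
        exact (mul_le_of_le_one_left (abs_nonneg _) (hz 0 b)).trans (h4 _ _ _)
    refine ⟨Fin.cons s t, ⟨fun b => h1 b, fun i b => ?_, fun l j b => ?_⟩, fun l j b => ?_⟩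
    · refine Fin.cases ?_ (fun i => ?_) i
      · simp [g1]
      · exact h2 i b
    · refine Fin.cases ?_ (fun l => ?_) l
      · exact g2 j b
      · exact h3 l j b
    · refine Fin.cases ?_ (fun l => ?_) l
      · exact (g3 j b).trans (le_of_eq (by ring))
      · exact (h4 l j b).trans (pow_le_pow_right₀ (one_le_pow₀ (by norm_num)) (by omega))

end Crest.Agent.R350
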