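import Crest.Agent.R350.QD

/-!
Row 350: amplification, detection, and the search for the source of a tournament.
-/

set_option autoImplicit false
set_option linter.unusedSectionVars false

namespace Crest.Agent.R350

open Finset

variable {ι : Type}

theorem ind_nonneg (b : Bool) : 0 ≤ ind b := by cases b <;> simp [ind]
theorem ind_le_one (b : Bool) : ind b ≤ 1 := by cases b <;> simp [ind]

theorem IsDist.pr_nonneg {O : Type} [Fintype O] {p : O → ℝ} (h : IsDist p) (g : O → Bool) :
    0 ≤ ∑ o, p o * ind (g o) :=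
  Finset.sum_nonneg fun o _ => mul_nonneg (h.1 o) (ind_nonneg _)

theorem IsDist.pr_le_one {O : Type} [Fintype O] {p : O → ℝ} (h : IsDist p) (g : O → Bool) :
    ∑ o, p o * ind (g o) ≤ 1 := by
  rw [← h.2]
  exact Finset.sum_le_sum fun o _ => mul_le_of_le_one_right (h.1 o) (ind_le_one _)

theorem IsDist.bool {p : Bool → ℝ} (h : IsDist p) : p true + p false = 1 := by
  simpa using h.2

theorem isDist_point {O : Type} [Fintype O] [DecidableEq O] (a : O) :
    IsDist fun o => if a = o then (1 : ℝ) else 0 :=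
  ⟨fun o => by positivity, by simp⟩

section
variable {O O' : Type} [Fintype O] [DecidableEq O] [Fintype O'] [DecidableEq O']
  {q q' : ℕ} {P : (ι → Bool) → O → ℝ}

theorem QD.ampN (h : QD q P) (good : O → Bool) (s : ℕ) :
    ∃ P' : (ι → Bool) → O → ℝ, QD (3 ^ s * q) P' ∧ ∀ x, ∃ f : ℝ, 0 ≤ f ∧ f ≤ 9 ^ s ∧
      (9 ^ s * ∑ o, P x o * ind (good o) ≤ 1 →
        9 ^ s * (1 - (9 ^ s * ∑ o, P x o * ind (good o)) / 3) ≤ f) ∧
      ∀ o, good o = true → P' x o = P x o * f := by
  induction s with
  | zero =>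
    refine ⟨P, by simpa using h, fun x => ⟨1, by norm_num, by norm_num, fun _ => ?_, by simp⟩⟩
    have := (h.isDist x).pr_nonneg good
    simp only [pow_zero]; linarith
  | succ s ih =>
    obtain ⟨P', hP', hf⟩ := ih
    refine ⟨_, (hP'.amp good).mono (le_of_eq (by ring)), fun x => ?_⟩
    obtain ⟨f, f0, f1, f2, f3⟩ := hf x
    have l0 := (hP'.isDist x).pr_nonneg good
    have l1 := (hP'.isDist x).pr_le_one good
    have m0 := (h.isDist x).pr_nonneg good
    have e : ∑ o, P' x o * ind (good o) = (∑ o, P x o * ind (good o)) * f := by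
      rw [Finset.sum_mul]
      refine Finset.sum_congr rfl fun o _ => ?_
      cases ho : good o
      · simp [ind]
      · rw [f3 o ho]; ring
    generalize ∑ o, P' x o * ind (good o) = l at *
    generalize ∑ o, P x o * ind (good o) = m at *
    have p9 : (0 : ℝ) < 9 ^ s := by positivity
    refine ⟨f * (3 - 4 * l) ^ 2, mul_nonneg f0 (sq_nonneg _), ?_, fun hm => ?_, fun o ho => ?_⟩
    · rw [pow_succ]
      exact mul_le_mul f1 (by nlinarith) (sq_nonneg _) p9.le
    · rw [pow_succ] at hm ⊢
      have hl : l ≤ 9 ^ s * m := by rw [e, mul_comm]; exact mul_le_mul_of_nonneg_right f1 m0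
      have hu : 0 ≤ 9 ^ s * m := by positivity
      have f4 := f2 (by nlinarith)
      have e2 : (9 : ℝ) ^ s * 9 * m = 9 * (9 ^ s * m) := by ring
      rw [e2] at hm ⊢
      generalize 9 ^ s * m = u at *
      have h1 : 9 * (1 - 8 * u / 3) ≤ (3 - 4 * l) ^ 2 := by nlinarith
      have h2 : 9 ^ s * (1 - u / 3) * (9 * (1 - 8 * u / 3)) ≤ f * (3 - 4 * l) ^ 2 :=
        mul_le_mul f4 h1 (by linarith) f0
      refine le_trans ?_ h2
      have : 1 - 9 * u / 3 ≤ (1 - u / 3) * (1 - 8 * u / 3) := by nlinarith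
      nlinarith
    · simp only [ho, if_true, f3 o ho]; ring

/-- Deterministic computation with `q` queries. -/
def CQ (q : ℕ) (g : (ι → Bool) → O) : Prop := QD q fun x o => if g x = o then (1 : ℝ) else 0

theorem CQ.const (a : O) : CQ 0 fun _ : ι → Bool => a := QD.const (isDist_point a)

theorem CQ.bit (i : ι) : CQ 1 fun x : ι → Bool => x i := QD.bit i

theorem CQ.mono {g : (ι → Bool) → O} (h : CQ q g) (hq : q ≤ q') : CQ q' g := QD.mono h hq

theorem CQ.bind {g : (ι → Bool) → O} {k : O → (ι → Bool) → O'} (h : CQ q g)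
    (hk : ∀ o, CQ q' (k o)) : CQ (q + q') fun x => k (g x) x :=
  (QD.bind h hk).congr fun x o => by
    rw [Finset.sum_eq_single (g x) (fun b _ hb => by simp [Ne.symm hb]) (by simp)]
    simp

theorem CQ.map {g : (ι → Bool) → O} (h : CQ q g) (f : O → O') : CQ q fun x => f (g x) :=
  h.bind fun o => CQ.const (f o)

theorem CQ.pair {g : (ι → Bool) → O} {g' : (ι → Bool) → O'} (h : CQ q g) (h' : CQ q' g') :
    CQ (q + q') fun x => (g x, g' x) :=
  h.bind (k := fun o x => (o, g' x)) fun o => h'.map fun o' => (o, o')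

theorem CQ.word (l : ℕ) (pos : Fin l → ι) : CQ l fun (x : ι → Bool) (b : Fin l) => x (pos b) := by
  induction l with
  | zero =>
    have := CQ.const (ι := ι) (fun b : Fin 0 => false)
    convert this using 2
  | succ l ih =>
    have := ((ih fun b => pos b.succ).pair (CQ.bit (pos 0))).map
      fun p => (Fin.cons p.2 p.1 : Fin (l + 1) → Bool)
    convert this using 2 with x
    funext b
    refine Fin.cases ?_ (fun b => ?_) b <;> simp

end

theorem QD.or {q q' : ℕ} {P P' : (ι → Bool) → Bool → ℝ} (h : QD q P) (h' : QD q' P') :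
    ∃ R : (ι → Bool) → Bool → ℝ, QD (q + q') R ∧ ∀ x, R x false = P x false * P' x false := by
  refine ⟨_, h.bind (R := fun b x o => if b then (if true = o then 1 else 0) else P' x o)
    (q' := q') fun b => ?_, fun x => by simp⟩
  cases b
  · simpa using h'
  · simpa using (QD.const (isDist_point true)).mono (Nat.zero_le q')

theorem QD.rep {q : ℕ} {P : (ι → Bool) → Bool → ℝ} (h : QD q P) (r : ℕ) :
    ∃ R : (ι → Bool) → Bool → ℝ, QD (r * q) R ∧ ∀ x, R x false = P x false ^ r := by
  induction r with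
  | zero => exact ⟨_, by simpa using QD.const (isDist_point false), fun x => by simp⟩
  | succ r ih =>
    obtain ⟨R, hR, e⟩ := ih
    obtain ⟨R', hR', e'⟩ := hR.or h
    exact ⟨R', hR'.mono (le_of_eq (by ring)), fun x => by rw [e', e, pow_succ]⟩

theorem QD.scales {q : ℕ} {P : (ι → Bool) → Bool → ℝ} (h : QD q P) (S : ℕ) :
    ∃ R : (ι → Bool) → Bool → ℝ, QD (2 * 3 ^ S * q) R ∧ ∀ x, (P x true = 0 → R x false = 1) ∧
      (1 ≤ 9 ^ (S + 1) * P x true → R x false ≤ 25 / 27) := by
  induction S with
  | zero =>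
    refine ⟨P, h.mono (by omega), fun x => ⟨fun h0 => ?_, fun h1 => ?_⟩⟩
    · linarith [(h.isDist x).bool]
    · norm_num at h1
      linarith [(h.isDist x).bool]
  | succ S ih =>
    obtain ⟨R, hR, e⟩ := ih
    obtain ⟨P', hP', hf⟩ := h.ampN id (S + 1)
    obtain ⟨R', hR', e'⟩ := hR.or hP'
    refine ⟨R', hR'.mono (by rw [pow_succ]; nlinarith [Nat.zero_le (3 ^ S * q)]), fun x => ?_⟩
    obtain ⟨f, f0, f1, f2, f3⟩ := hf x
    have e1 : ∑ o, P x o * ind (id o) = P x true := by simp [ind]
    rw [e1] at f2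
    have e2 := f3 true rfl
    have b1 := (hP'.isDist x).bool
    have b2 := (hR.isDist x).bool
    have n1 := (hP'.isDist x).1
    have n2 := (hR.isDist x).1
    have n3 := (h.isDist x).1 true
    rw [e']
    refine ⟨fun h0 => ?_, fun h1 => ?_⟩
    · rw [h0, zero_mul] at e2
      rw [(e x).1 h0]; linarith
    · by_cases hc : 1 ≤ 9 ^ (S + 1) * P x true
      · nlinarith [(e x).2 hc, n1 true, n1 false, n2 false]
      · push Not at hc
        have f4 := f2 hc.le
        have e3 : (9 : ℝ) ^ (S + 1 + 1) * P x true = 9 * (9 ^ (S + 1) * P x true) := by ring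
        rw [e3] at h1
        have h2 : P x true * (9 ^ (S + 1) * (1 - 9 ^ (S + 1) * P x true / 3)) ≤ P x true * f :=
          mul_le_mul_of_nonneg_left f4 n3
        have e4 : P x true * (9 ^ (S + 1) * (1 - 9 ^ (S + 1) * P x true / 3)) =
            9 ^ (S + 1) * P x true * (1 - 9 ^ (S + 1) * P x true / 3) := by ring
        rw [e4] at h2
        generalize 9 ^ (S + 1) * P x true = u at *
        have h3 : 2 / 27 ≤ P' x true := by nlinarith
        nlinarith [n1 false, n2 true, n2 false]

theorem pow_mul_le_one {a : ℝ} (h0 : 0 ≤ a) (h1 : a ≤ 1) (r : ℕ) :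
    (1 - a) ^ r * (1 + r * a) ≤ 1 := by
  induction r with
  | zero => simp
  | succ r ih =>
    have : 0 ≤ (1 - a) ^ r := pow_nonneg (by linarith) r
    have h2 : (1 - a) * (1 + (r + 1) * a) ≤ 1 + r * a := by
      nlinarith [mul_nonneg (mul_nonneg h0 h0) (Nat.cast_nonneg (α := ℝ) r)]
    push_cast
    calc (1 - a) ^ (r + 1) * (1 + (r + 1) * a) = (1 - a) ^ r * ((1 - a) * (1 + (r + 1) * a)) := by
          ring
      _ ≤ (1 - a) ^ r * (1 + r * a) := mul_le_mul_of_nonneg_left h2 this
      _ ≤ 1 := ih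

/-- Detection of an event of probability at least `9 ^ (-S)`, with no false alarm. -/
theorem QD.detect {q : ℕ} {P : (ι → Bool) → Bool → ℝ} (h : QD q P) (S r : ℕ) :
    ∃ R : (ι → Bool) → Bool → ℝ, QD (r * (2 * 3 ^ S * q)) R ∧ ∀ x,
      (P x true = 0 → R x false = 1) ∧ (1 ≤ 9 ^ S * P x true → r * R x false ≤ 14) := by
  obtain ⟨R, hR, e⟩ := h.scales S
  obtain ⟨R', hR', e'⟩ := hR.rep r
  refine ⟨R', hR', fun x => ⟨fun h0 => by rw [e', (e x).1 h0, one_pow], fun h1 => ?_⟩⟩
  have h2 := (e x).2 (by rw [pow_succ]; nlinarith)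
  have h3 := pow_le_pow_left₀ ((hR.isDist x).1 false) h2 r
  have h4 := pow_mul_le_one (a := 2 / 27) (by norm_num) (by norm_num) r
  rw [show (1 : ℝ) - 2 / 27 = 25 / 27 by norm_num] at h4
  have h5 : (0 : ℝ) ≤ r := Nat.cast_nonneg r
  have h6 : (0 : ℝ) ≤ (25 / 27) ^ r := by positivity
  rw [e']
  nlinarith

section Tour
variable {V γ : Type} [Fintype V] [DecidableEq V] [DecidableEq γ]

/-- In a weighted tournament, few vertices have small in-degree. -/
theorem sparse {μ : V → ℝ} (hμ : IsDist μ) (lose : V → V → Bool) (col : V → γ) {τ : ℝ}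
    (hτ : 0 ≤ τ) (hcol : ∀ j, ∑ u, μ u * (if col u = j then 1 else 0) ≤ τ)
    (hl : ∀ u u', col u ≠ col u' → lose u u' = true ∨ lose u' u = true) :
    ∑ u ∈ univ.filter (fun u => ∑ u', μ u' * ind (lose u u') < τ), μ u ≤ 3 * τ := by
  set S := univ.filter (fun u => ∑ u', μ u' * ind (lose u u') < τ) with hS
  have h0 : 0 ≤ ∑ u ∈ S, μ u := Finset.sum_nonneg fun u _ => hμ.1 u
  have h1 : ∑ u ∈ S, ∑ u' ∈ S, μ u * (μ u' * ind (lose u u')) ≤ (∑ u ∈ S, μ u) * τ := by
    rw [Finset.sum_mul]
    refine Finset.sum_le_sum fun u hu => ?_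
    rw [← Finset.mul_sum]
    refine mul_le_mul_of_nonneg_left (le_trans ?_ (Finset.mem_filter.1 hu).2.le) (hμ.1 u)
    exact Finset.sum_le_univ_sum_of_nonneg fun u' => mul_nonneg (hμ.1 u') (ind_nonneg _)
  have h2 : ∑ u ∈ S, ∑ u' ∈ S, μ u * (μ u' * (if col u' = col u then 1 else 0)) ≤
      (∑ u ∈ S, μ u) * τ := by
    rw [Finset.sum_mul]
    refine Finset.sum_le_sum fun u _ => ?_
    rw [← Finset.mul_sum]
    refine mul_le_mul_of_nonneg_left (le_trans ?_ (hcol (col u))) (hμ.1 u)
    exact Finset.sum_le_univ_sum_of_nonneg fun u' => mul_nonneg (hμ.1 u') (by positivity)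
  have h3 : ∑ u ∈ S, ∑ u' ∈ S, μ u' * (μ u * ind (lose u' u)) ≤ (∑ u ∈ S, μ u) * τ := by
    rw [Finset.sum_comm]; exact h1
  have h4 : (∑ u ∈ S, μ u) * (∑ u ∈ S, μ u) ≤ 3 * ((∑ u ∈ S, μ u) * τ) := by
    rw [Finset.sum_mul_sum]
    refine le_trans ?_ (show _ ≤ _ from by linarith [add_le_add (add_le_add h1 h2) h3] :
      ∑ u ∈ S, ∑ u' ∈ S, μ u * (μ u' * ind (lose u u')) +
      ∑ u ∈ S, ∑ u' ∈ S, μ u * (μ u' * (if col u' = col u then 1 else 0)) +
      ∑ u ∈ S, ∑ u' ∈ S, μ u' * (μ u * ind (lose u' u)) ≤ _)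
    simp only [← Finset.sum_add_distrib]
    refine Finset.sum_le_sum fun u _ => Finset.sum_le_sum fun u' _ => ?_
    have hm := mul_nonneg (hμ.1 u) (hμ.1 u')
    have i1 := ind_nonneg (lose u u')
    have i2 := ind_nonneg (lose u' u)
    by_cases hc : col u' = col u
    · simp only [hc, if_true]; nlinarith
    · simp only [hc, if_false]
      rcases hl u u' (Ne.symm hc) with h | h
      · have : ind (lose u u') = 1 := by simp [h, ind]
        rw [this]; nlinarith
      · have : ind (lose u' u) = 1 := by simp [h, ind]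
        rw [this]; nlinarith
  by_contra hc
  nlinarith

theorem search_level {q0 q1 b L : ℕ} {μ : (ι → Bool) → V → ℝ} (hμ : QD q0 μ)
    {lose : V → V → (ι → Bool) → Bool} (hq : ∀ u u', CQ q1 (lose u u')) (col : V → γ)
    (hcol : ∀ x j, ∑ u, μ x u * (if col u = j then 1 else 0) ≤ 1 / 9 ^ ((b + 1) * L))
    (hl : ∀ x u u', col u ≠ col u' → lose u u' x = true ∨ lose u' u x = true) (i : ℕ)
    (hi : i ≤ L) :
    ∃ P : (ι → Bool) → Option V → ℝ,
      QD ((i + 1) * 3 ^ ((b + 1) * i) * 3 ^ b * (6 * 9 ^ (b + 1) * (q0 + q1))) P ∧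
      ∀ x u, P x (some u) ≤ (9 ^ b) ^ i * μ x u ∧
        ((∀ u', lose u u' x = false) → (2 / 3 * 9 ^ b) ^ i * μ x u ≤ P x (some u)) := by
  induction i with
  | zero =>
    refine ⟨_, (hμ.map some).mono ?_, fun x u => by simp⟩
    have h1 : 1 ≤ 3 ^ b := Nat.one_le_pow _ _ (by norm_num)
    have h2 : 1 ≤ 9 ^ (b + 1) := Nat.one_le_pow _ _ (by norm_num)
    simp only [zero_add, mul_zero, pow_zero, one_mul]
    nlinarith [Nat.zero_le q1, Nat.zero_le q0, Nat.mul_le_mul h1 h2]
  | succ i ih =>
    obtain ⟨P, hP, eP⟩ := ih (by omega)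
    choose T hT eT using fun u => (hμ.bind (hq u)).detect ((b + 1) * (i + 1)) (3 * 9 ^ (b + 1))
    have hlam : ∀ x u, (∑ o, μ x o * if lose u o x = true then 1 else 0) =
        ∑ u', μ x u' * ind (lose u u' x) := fun x u => rfl
    simp only [hlam] at eT
    have h1 := hP.bind (O' := Option V)
      (q' := 3 * 9 ^ (b + 1) * (2 * 3 ^ ((b + 1) * (i + 1)) * (q0 + q1)))
      (R := fun o x o' => match o with
        | none => if none = o' then 1 else 0
        | some u => ∑ c, T u x c * if (if c then none else some u) = o' then 1 else 0) (by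
      rintro (_ | u)
      · exact (QD.const (isDist_point none)).mono (Nat.zero_le _)
      · exact (hT u).map _)
    obtain ⟨P', hP', hf⟩ := h1.ampN Option.isSome b
    refine ⟨P', hP'.mono ?_, fun x u => ?_⟩
    · have e1 : 3 ^ ((b + 1) * (i + 1)) = 3 ^ ((b + 1) * i) * 3 ^ b * 3 := by ring
      rw [e1]
      generalize 3 ^ ((b + 1) * i) = A
      generalize 3 ^ b = B
      generalize 9 ^ (b + 1) = C
      generalize q0 + q1 = Q
      nlinarith [Nat.zero_le (i * A * B * B * C * Q), Nat.zero_le (A * B * B * C * Q)]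
    obtain ⟨f, f0, f1, f2, f3⟩ := hf x
    have hv : ∀ u, (∑ o, P x o * match o with
        | none => if none = some u then 1 else 0
        | some u' => ∑ c, T u' x c * if (if c then none else some u') = some u then 1 else 0) =
        P x (some u) * T u x false := by
      intro u
      rw [Fintype.sum_option]
      simp
    have hT0 := fun u => ((hT u).isDist x).1 false
    have hT1 : ∀ u, T u x false ≤ 1 := fun u => by
      linarith [((hT u).isDist x).bool, ((hT u).isDist x).1 true]
    have hP0 := (hP.isDist x).1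
    have hm0 := (hμ.isDist x).1
    rw [f3 (some u) rfl]
    simp only [hv]
    refine ⟨?_, fun hu => ?_⟩
    · rw [pow_succ]
      have := mul_le_mul ((mul_le_of_le_one_right (hP0 _) (hT1 u)).trans (eP x u).1) f1 f0
        (mul_nonneg (by positivity) (hm0 u))
      linarith
    · rw [(eT u x).1 (by simp [hu, ind]), mul_one, pow_succ]
      have p9 : (0 : ℝ) < 9 ^ b := by positivity
      have htot : 9 ^ b * ∑ u, P x (some u) * T u x false ≤ 1 := by
        set τ : ℝ := 1 / 9 ^ ((b + 1) * (i + 1)) with hτ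
        have hs := sparse (hμ.isDist x) (fun u u' => lose u u' x) col (τ := τ) (by positivity)
          (fun j => (hcol x j).trans (one_div_le_one_div_of_le (by positivity)
            (pow_le_pow_right₀ (by norm_num) (Nat.mul_le_mul_left _ hi)))) (hl x)
        have h2 : ∑ u, P x (some u) * T u x false ≤ ∑ u, ((9 ^ b) ^ i *
            (if ∑ u', μ x u' * ind (lose u u' x) < τ then μ x u else 0) +
            P x (some u) * (14 / (3 * 9 ^ (b + 1)))) := by
          refine Finset.sum_le_sum fun u _ => ?_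
          split_ifs with hc
          · have := (mul_le_of_le_one_right (hP0 _) (hT1 u)).trans (eP x u).1
            have : 0 ≤ P x (some u) * (14 / (3 * 9 ^ (b + 1))) := mul_nonneg (hP0 _) (by positivity)
            linarith
          · rw [mul_zero, zero_add]
            refine mul_le_mul_of_nonneg_left ?_ (hP0 _)
            have := (eT u x).2 (by
              rw [not_lt, hτ, div_le_iff₀ (by positivity)] at hc; linarith)
            push_cast at this
            rw [le_div_iff₀ (by positivity)]; linarith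
        rw [Finset.sum_add_distrib, ← Finset.mul_sum, ← Finset.sum_filter, ← Finset.sum_mul] at h2
        have h3 : ∑ u, P x (some u) ≤ 1 := by
          have := (hP.isDist x).2
          rw [Fintype.sum_option] at this
          linarith [hP0 none]
        have h4 : ((9 : ℝ) ^ b) ^ i * (3 * τ) ≤ 3 / 9 ^ (b + 1) := by
          rw [hτ, ← pow_mul, mul_one_div, ← mul_div_assoc, div_le_div_iff₀ (by positivity)
            (by positivity)]
          have : (9 : ℝ) ^ (b * i) * 9 ^ (b + 1) ≤ 9 ^ ((b + 1) * (i + 1)) := by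
            rw [← pow_add]; exact pow_le_pow_right₀ (by norm_num) (by nlinarith)
          nlinarith
        have h5 := mul_le_mul_of_nonneg_left hs (show (0 : ℝ) ≤ (9 ^ b) ^ i by positivity)
        have h6 := mul_le_of_le_one_left (show (0 : ℝ) ≤ 14 / (3 * 9 ^ (b + 1)) by positivity) h3
        have h7 : (3 : ℝ) / 9 ^ (b + 1) + 14 / (3 * 9 ^ (b + 1)) ≤ 1 / 9 ^ b := by
          rw [pow_succ]; field_simp; norm_num
        rw [mul_comm, ← le_div_iff₀ p9]
        linarith
      have e1 : ∑ o, (∑ o', P x o' * match o' with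
          | none => if none = o then 1 else 0
          | some u' => ∑ c, T u' x c * if (if c then none else some u') = o then 1 else 0) *
          ind o.isSome = ∑ u, P x (some u) * T u x false := by
        rw [Fintype.sum_option]
        simp only [hv, Option.isSome_none, Option.isSome_some, ind]
        simp
      rw [e1] at f2
      have f4 := f2 htot
      have f5 : 2 / 3 * 9 ^ b ≤ f := by nlinarith
      have := mul_le_mul ((eP x u).2 hu) f5 (by positivity) (hP0 _)
      linarith

/-- The whole algorithm: search for the source, verify it, repeat. -/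
theorem search_verify {J : Type} [Fintype J] [DecidableEq J] [Nonempty J] {q0 q1 q2 b L S t : ℕ}
    {μ : (ι → Bool) → V → ℝ} (hμ : QD q0 μ)
    {lose : V → V → (ι → Bool) → Bool} (hq : ∀ u u', CQ q1 (lose u u')) (col : V → γ)
    (hcol : ∀ x j, ∑ u, μ x u * (if col u = j then 1 else 0) ≤ 1 / 9 ^ ((b + 1) * L))
    (hl : ∀ x u u', col u ≠ col u' → lose u u' x = true ∨ lose u' u x = true)
    {chk : V → J → (ι → Bool) → Bool} (hchk : ∀ u j, CQ q2 (chk u j))
    (hJ : Fintype.card J ≤ 9 ^ S) {F : (ι → Bool) → Bool}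
    (hF : ∀ x, F x = true ↔ ∃ u, ∀ j, chk u j x = true)
    (hv : ∀ x u, (∀ j, chk u j x = true) → (∀ u', lose u u' x = false) ∧
      2 ≤ t * ((2 / 3 * 9 ^ b) ^ L * μ x u)) :
    ∃ P : (ι → Bool) → Bool → ℝ,
      QD (t * ((L + 1) * 3 ^ ((b + 1) * L) * 3 ^ b * (6 * 9 ^ (b + 1) * (q0 + q1)) +
        (42 * t + 1) * (2 * 3 ^ S * q2))) P ∧ ∀ x, 2 / 3 ≤ P x (F x) := by
  obtain ⟨P, hP, eP⟩ := search_level hμ hq col hcol hl L le_rfl
  have hJ0 : (0 : ℝ) < Fintype.card J := by exact_mod_cast Fintype.card_pos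
  have hU : IsDist fun _ : J => (1 : ℝ) / Fintype.card J :=
    ⟨fun _ => by positivity, by simp⟩
  choose T hT eT using fun u => ((QD.const hU).bind fun j => (hchk u j).map fun c => !c).detect S
    (42 * t + 1)
  simp only [zero_add] at hT
  have h1 := hP.bind (O' := Bool) (q' := (42 * t + 1) * (2 * 3 ^ S * q2))
    (R := fun o x o' => match o with
      | none => if false = o' then 1 else 0
      | some u => ∑ c, T u x c * if (!c) = o' then 1 else 0) (by
    rintro (_ | u)
    · exact (QD.const (isDist_point false)).mono (Nat.zero_le _)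
    · exact (hT u).map _)
  obtain ⟨R, hR, eR⟩ := h1.rep t
  refine ⟨R, hR, fun x => ?_⟩
  have hb := (h1.isDist x).bool
  have hn := (h1.isDist x).1
  have e1 : (∑ o, P x o * match o with
      | none => if false = true then 1 else 0
      | some u => ∑ c, T u x c * if (!c) = true then 1 else 0) =
      ∑ u, P x (some u) * T u x false := by
    rw [Fintype.sum_option]; simp
  have hn1 := hn false
  beta_reduce at hb hn1
  rw [e1] at hb
  have eR' := eR x
  generalize (∑ o, P x o * match o with
      | none => if false = false then 1 else 0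
      | some u => ∑ c, T u x c * if (!c) = false then 1 else 0) = ρ at *
  have hP0 := (hP.isDist x).1
  have hT0 := fun u => ((hT u).isDist x).1 false
  have ha0 : 0 ≤ ∑ u, P x (some u) * T u x false :=
    Finset.sum_nonneg fun u _ => mul_nonneg (hP0 _) (hT0 u)
  have eρ : ρ = 1 - ∑ u, P x (some u) * T u x false := by linarith
  have ht0 : (0 : ℝ) ≤ t := Nat.cast_nonneg t
  cases hx : F x
  · have h2 : ∑ u, P x (some u) * T u x false ≤ ∑ u, P x (some u) * (14 / (42 * t + 1)) := by
      refine Finset.sum_le_sum fun u _ => mul_le_mul_of_nonneg_left ?_ (hP0 _)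
      have hne : ¬ ∀ j, chk u j x = true := fun hc => by
        rw [(hF x).2 ⟨u, hc⟩] at hx; exact absurd hx (by simp)
      push Not at hne
      obtain ⟨j, hj⟩ := hne
      have := (eT u x).2 (by
        have h3 : (1 : ℝ) / Fintype.card J ≤
            ∑ o, 1 / (Fintype.card J : ℝ) * if (!chk u o x) = true then 1 else 0 := by
          refine le_trans (le_of_eq ?_) (Finset.single_le_sum
            (f := fun o => 1 / (Fintype.card J : ℝ) * if (!chk u o x) = true then 1 else 0)
            (fun o _ => by positivity) (Finset.mem_univ j))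
          simp [hj]
        have h4 : (Fintype.card J : ℝ) ≤ 9 ^ S := by exact_mod_cast hJ
        refine le_trans ?_ (mul_le_mul_of_nonneg_left h3 (by positivity))
        rw [mul_one_div, le_div_iff₀ hJ0]; linarith)
      push_cast at this
      rw [le_div_iff₀ (by positivity)]; linarith
    rw [← Finset.sum_mul] at h2
    have h3 : ∑ u, P x (some u) ≤ 1 := by
      have := (hP.isDist x).2
      rw [Fintype.sum_option] at this
      linarith [hP0 none]
    have h4 := h2.trans (mul_le_of_le_one_left (by positivity) h3)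
    rw [le_div_iff₀ (by positivity)] at h4
    have h5 := one_add_mul_le_pow (a := -∑ u, P x (some u) * T u x false) (by linarith) t
    rw [eR', eρ, sub_eq_add_neg]
    nlinarith
  · obtain ⟨u, hu⟩ := (hF x).1 hx
    obtain ⟨h2, h3⟩ := hv x u hu
    have h4 := (eP x u).2 h2
    have h5 : P x (some u) ≤ ∑ u, P x (some u) * T u x false := by
      refine le_trans (le_of_eq ?_) (Finset.single_le_sum
        (f := fun u => P x (some u) * T u x false)
        (fun u _ => mul_nonneg (hP0 _) (hT0 u)) (Finset.mem_univ u))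
      rw [(eT u x).1 (by simp [hu]), mul_one]
    have h6 := pow_mul_le_one ha0 (by linarith) t
    have h7 := (hR.isDist x).bool
    rw [eR', eρ] at h7
    have h8 : 0 ≤ (1 - ∑ u, P x (some u) * T u x false) ^ t := pow_nonneg (by linarith) t
    have h9 := mul_le_mul_of_nonneg_left (h4.trans h5) ht0
    nlinarith

end Tour

end Crest.Agent.R350
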