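import Crest.Agent.R350.Forr
import Crest.Agent.R350.Search

/-!
Row 350: the total function and its quantum algorithm.
-/

set_option autoImplicit false

namespace Crest.Agent.R350

open Finset

/-- Slots of a cell: a flag, pointers into the columns, a transcript of the transform. -/
abbrev Sl (n k ℓ : ℕ) : Type :=
  Unit ⊕ (Bv n × Fin n) ⊕ ((Fin (k + 1) × Fin (n + 1) × Bv n) × Fin ℓ)

abbrev IX (n k ℓ : ℕ) : Type := Ix (Bv n) (Bv n) (Fin (k + 1) × Bv n) (Sl n k ℓ)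

/-- The local checks. -/
abbrev JJ (n k : ℕ) : Type :=
  Unit ⊕ Bv n ⊕ Bv n ⊕ Bv n ⊕ (Fin k × Bv n) ⊕ (Fin (k + 1) × Fin n × Bv n)

variable {n k ℓ : ℕ}

def pG (c i : Bv n) : IX n k ℓ := .inl (c, i)
def pH (c : Bv n) (q : Fin (k + 1) × Bv n) : IX n k ℓ := .inr (.inl (c, q))
def pF (u : Bv n × Bv n) : IX n k ℓ := .inr (.inr (u.1, u.2, .inl ()))
def pP (u : Bv n × Bv n) (p : Bv n) (e : Fin n) : IX n k ℓ :=
  .inr (.inr (u.1, u.2, .inr (.inl (p, e))))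
def pT (u : Bv n × Bv n) (l : Fin (k + 1)) (j : Fin (n + 1)) (b : Bv n) (e : Fin ℓ) : IX n k ℓ :=
  .inr (.inr (u.1, u.2, .inr (.inr ((l, j, b), e))))

def tr (dZ : (Fin ℓ → Bool) → ℤ) (x : IX n k ℓ → Bool) (u : Bv n × Bv n) (l : Fin (k + 1))
    (j : Fin (n + 1)) (b : Bv n) : ℤ := dZ fun e => x (pT u l j b e)

def Chk (θ : ℝ) (dZ : (Fin ℓ → Bool) → ℤ) (u : Bv n × Bv n) :
    JJ n k → (IX n k ℓ → Bool) → Prop
  | .inl _, x => x (pF u) = true ∧
      θ * (2 ^ n * √(2 ^ n) ^ k) ≤ (tr dZ x u 0 (Fin.last n) u.2 : ℝ)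
  | .inr (.inl i), x => x (pG u.1 i) = true
  | .inr (.inr (.inl p)), x => p = u.1 ∨ x (pG p fun e => x (pP u p e)) = false
  | .inr (.inr (.inr (.inl b))), x =>
      tr dZ x u (Fin.last k) 0 b = sgZ (x (pH u.1 (Fin.last k, b)))
  | .inr (.inr (.inr (.inr (.inl q)))), x => tr dZ x u q.1.castSucc 0 q.2 =
      sgZ (x (pH u.1 (q.1.castSucc, q.2))) * tr dZ x u q.1.succ (Fin.last n) q.2
  | .inr (.inr (.inr (.inr (.inr q)))), x => tr dZ x u q.1 q.2.1.succ q.2.2 =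
      bf (tr dZ x u q.1 q.2.1.castSucc) q.2.1 q.2.2

theorem chk_iff (θ : ℝ) (dZ : (Fin ℓ → Bool) → ℤ) (u : Bv n × Bv n) (x : IX n k ℓ → Bool) :
    (∀ j, Chk θ dZ u j x) ↔ (x (pF u) = true ∧
      θ * (2 ^ n * √(2 ^ n) ^ k) ≤ (tr dZ x u 0 (Fin.last n) u.2 : ℝ)) ∧
      (∀ i, x (pG u.1 i) = true) ∧ (∀ p, p = u.1 ∨ x (pG p fun e => x (pP u p e)) = false) ∧
      TOK k (fun l b => sgZ (x (pH u.1 (l, b)))) (tr dZ x u) := by
  simp only [Sum.forall, Prod.forall, Chk, TOK, forall_const]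

open Classical in
noncomputable def chk (θ : ℝ) (dZ : (Fin ℓ → Bool) → ℤ) (u : Bv n × Bv n) (j : JJ n k)
    (x : IX n k ℓ → Bool) : Bool := decide (Chk θ dZ u j x)

open Classical in
/-- The function. -/
noncomputable def FF (θ : ℝ) (dZ : (Fin ℓ → Bool) → ℤ) (x : IX n k ℓ → Bool) : Bool :=
  decide (∃ u, ∀ j, Chk θ dZ u j x)

theorem CQ.congr {ι O : Type} [Fintype O] [DecidableEq O] {q : ℕ} {g g' : (ι → Bool) → O}
    (h : CQ q g) (e : ∀ x, g' x = g x) : CQ q g' := by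
  rw [show g' = g from funext e]; exact h

theorem cq_ptr (u : Bv n × Bv n) (p : Bv n) :
    CQ (n + 1) fun x : IX n k ℓ → Bool => x (pG p fun e => x (pP u p e)) :=
  (CQ.word n (pP u p)).bind (k := fun o x => x (pG p o)) fun _ => CQ.bit _

theorem cq_chk (θ : ℝ) (dZ : (Fin ℓ → Bool) → ℤ) (u : Bv n × Bv n) (j : JJ n k) :
    CQ (3 * ℓ + n + 1) (chk θ dZ u j) := by
  classical
  rcases j with _ | i | p | b | q | q
  · refine ((((CQ.bit (pF u)).pair (CQ.word ℓ (pT u 0 (Fin.last n) u.2))).map fun o =>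
      decide (o.1 = true ∧ θ * (2 ^ n * √(2 ^ n) ^ k) ≤ (dZ o.2 : ℝ))).mono (by omega)).congr
      fun x => ?_
    simp [chk, Chk, tr]
  · refine ((CQ.bit (pG u.1 i)).mono (by omega)).congr fun x => ?_
    simp [chk, Chk]
  · refine (((cq_ptr u p).map fun o => decide (p = u.1 ∨ o = false)).mono (by omega)).congr
      fun x => ?_
    simp [chk, Chk]
  · refine ((((CQ.bit (pH u.1 (Fin.last k, b))).pair (CQ.word ℓ (pT u (Fin.last k) 0 b))).map
      fun o => decide (dZ o.2 = sgZ o.1)).mono (by omega)).congr fun x => ?_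
    simp [chk, Chk, tr]
  · refine (((((CQ.bit (pH u.1 (q.1.castSucc, q.2))).pair
      (CQ.word ℓ (pT u q.1.castSucc 0 q.2))).pair
        (CQ.word ℓ (pT u q.1.succ (Fin.last n) q.2))).map
      fun o => decide (dZ o.1.2 = sgZ o.1.1 * dZ o.2)).mono (by omega)).congr fun x => ?_
    simp [chk, Chk, tr]
  · refine (((((CQ.word ℓ (pT u q.1 q.2.1.succ q.2.2)).pair
      (CQ.word ℓ (pT u q.1 q.2.1.castSucc (Function.update q.2.2 q.2.1 false)))).pair
        (CQ.word ℓ (pT u q.1 q.2.1.castSucc (Function.update q.2.2 q.2.1 true)))).map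
      fun o => decide (dZ o.1.1 = dZ o.1.2 + sgZ (q.2.2 q.2.1) * dZ o.2)).mono
        (by omega)).congr fun x => ?_
    simp [chk, Chk, tr, bf]

/-- The tournament. -/
def lose (u u' : Bv n × Bv n) (x : IX n k ℓ → Bool) : Bool :=
  decide (u.1 ≠ u'.1 ∧ (x (pG u.1 fun e => x (pP u' u.1 e)) = false ∨
    x (pG u'.1 fun e => x (pP u u'.1 e)) = true))

theorem cq_lose (u u' : Bv n × Bv n) : CQ (2 * n + 2) (lose (k := k) (ℓ := ℓ) u u') :=
  (((cq_ptr u' u.1).pair (cq_ptr u u'.1)).map fun o =>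
    decide (u.1 ≠ u'.1 ∧ (o.1 = false ∨ o.2 = true))).mono (by omega)

/-- The amplitude at the address `A`. -/
noncomputable abbrev ampA (A : Bv n) (y : Fin (k + 1) × Bv n → Bool) : ℝ :=
  amp (Had n) (fun b => (chi A b : ℝ)) y

theorem sum_ampA (y : Fin (k + 1) × Bv n → Bool) : ∑ A, ampA A y ^ 2 = 1 :=
  ((qd_forr k id).isDist y).2

theorem ampA_le_one (A : Bv n) (y : Fin (k + 1) × Bv n → Bool) : ampA A y ≤ 1 := by
  have h := Finset.single_le_sum (f := fun A => ampA A y ^ 2) (fun _ _ => sq_nonneg _)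
    (Finset.mem_univ A)
  rw [sum_ampA] at h
  nlinarith

theorem qd_mu : QD (k + 1) fun (x : IX n k ℓ → Bool) (u : Bv n × Bv n) =>
    1 / 2 ^ n * ampA u.2 (fun q => x (pH u.1 q)) ^ 2 := by
  have hU : IsDist fun _ : Bv n => (1 : ℝ) / 2 ^ n := ⟨fun _ => by positivity, by simp⟩
  have := (QD.const hU).bind fun c => (qd_forr k (pH (ℓ := ℓ) c)).map fun A => (c, A)
  rw [zero_add] at this
  refine this.congr fun x u => ?_
  rw [Finset.sum_eq_single u.1 (fun c _ hc => by simp [Prod.ext_iff, hc]) (by simp),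
    Finset.sum_eq_single u.2 (fun c _ hc => by simp [Prod.ext_iff, hc]) (by simp)]
  simp

theorem le_ampA {θ : ℝ} {dZ : (Fin ℓ → Bool) → ℤ} {u : Bv n × Bv n} {x : IX n k ℓ → Bool}
    (h : ∀ j, Chk θ dZ u j x) : θ ≤ ampA u.2 fun q => x (pH u.1 q) := by
  obtain ⟨⟨-, h1⟩, -, -, h2⟩ := (chk_iff θ dZ u x).1 h
  rw [h2.sound] at h1
  rw [ampA, amp_eq, le_div_iff₀ (by positivity)]
  exact h1

theorem quantum_ub {θ : ℝ} (hθ : 0 ≤ θ) (dZ : (Fin ℓ → Bool) → ℤ) {b L S t : ℕ}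
    (h1 : 9 ^ ((b + 1) * L) ≤ 2 ^ n) (hJ : Fintype.card (JJ n k) ≤ 9 ^ S)
    (ht : 2 ≤ t * ((2 / 3 * 9 ^ b) ^ L * (1 / 2 ^ n * θ ^ 2))) :
    ∃ P : (IX n k ℓ → Bool) → Bool → ℝ,
      QD (t * ((L + 1) * 3 ^ ((b + 1) * L) * 3 ^ b * (6 * 9 ^ (b + 1) * (k + 1 + (2 * n + 2))) +
        (42 * t + 1) * (2 * 3 ^ S * (3 * ℓ + n + 1)))) P ∧ ∀ x, 2 / 3 ≤ P x (FF θ dZ x) := by
  let _ : DecidableEq (JJ n k) := Classical.decEq _
  refine search_verify qd_mu cq_lose Prod.fst (fun x j => ?_) (fun x u u' h => ?_)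
    (cq_chk θ dZ) hJ (fun x => by simp [FF, chk]) fun x u h => ⟨fun u' => ?_, ?_⟩
  · rw [Fintype.sum_prod_type, Finset.sum_eq_single j (fun c _ hc => by simp [hc]) (by simp)]
    simp only [if_true, mul_one, ← Finset.mul_sum, sum_ampA]
    exact one_div_le_one_div_of_le (by positivity) (by exact_mod_cast h1)
  · simp only [lose, decide_eq_true_eq, ne_eq, h, not_false_eq_true, true_and, Ne.symm h]
    cases x (pG u.1 fun e => x (pP u' u.1 e)) <;> simp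
  · simp only [chk, decide_eq_true_eq] at h
    obtain ⟨-, h2, h3, -⟩ := (chk_iff θ dZ u x).1 h
    rcases h3 u'.1 with h4 | h4
    · simp [lose, h4]
    · simp [lose, h2, h4]
  · simp only [chk, decide_eq_true_eq] at h
    have := pow_le_pow_left₀ hθ (le_ampA h) 2
    exact ht.trans (by gcongr)

theorem FF_zero (θ : ℝ) (dZ : (Fin ℓ → Bool) → ℤ) (z : Bv n → Bv n → Bool)
    (y : Bv n → Fin (k + 1) × Bv n → Bool) : FF θ dZ (mk z y fun _ _ _ => false) = false := by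
  simp only [FF, decide_eq_false_iff_not]
  rintro ⟨u, h⟩
  have := (h (.inl ())).1
  simp [pF, mk] at this

theorem FF_plant (θ : ℝ) {dZ : (Fin ℓ → Bool) → ℤ}
    (hd : ∀ t : ℤ, |t| ≤ (2 ^ n) ^ (k + 1) → ∃ w, dZ w = t) (c A : Bv n) (z : Bv n → Bv n → Bool)
    (y : Bv n → Fin (k + 1) × Bv n → Bool) (h1 : ∀ i, z c i = true)
    (h2 : ∀ j, j ≠ c → ∃ i, z j i = false) (h3 : θ ≤ ampA A (y c)) :
    ∃ w : Sl n k ℓ → Bool,
      FF θ dZ (mk z y fun c' A' s => if c' = c ∧ A' = A then w s else false) = true := by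
  obtain ⟨t, ht, hb⟩ := TOK.complete k (fun l b => sgZ (y c (l, b))) fun l b => by
    cases y c (l, b) <;> simp [sgZ]
  choose wd hwd using fun l j b => hd _ (hb l j b)
  have h2' : ∀ j, ∃ i, j = c ∨ z j i = false := fun j => by
    by_cases hj : j = c
    · exact ⟨c, Or.inl hj⟩
    · exact (h2 j hj).imp fun i hi => Or.inr hi
  choose pt hpt using h2'
  refine ⟨Sum.elim (fun _ => true) (Sum.elim (fun q => pt q.1 q.2)
    fun q => wd q.1.1 q.1.2.1 q.1.2.2 q.2), ?_⟩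
  simp only [FF, decide_eq_true_eq]
  refine ⟨(c, A), (chk_iff _ _ _ _).2 ?_⟩
  generalize hx : mk z y _ = x
  have e1 : tr dZ x (c, A) = t := by
    funext l j b
    rw [← hwd, ← hx]
    simp [tr, pT, mk]
  have e2 : ∀ q, x (pH c q) = y c q := fun q => by rw [← hx]; rfl
  have e3 : ∀ p i, x (pG p i) = z p i := fun p i => by rw [← hx]; rfl
  have e4 : ∀ p e, x (pP (c, A) p e) = pt p e := fun p e => by rw [← hx]; simp [pP, mk]
  simp only [e1, e2, e3, e4]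
  refine ⟨⟨by rw [← hx]; simp [pF, mk], ?_⟩, h1, hpt, ht⟩
  rw [ampA, amp_eq, le_div_iff₀ (by positivity)] at h3
  rw [ht.sound]
  exact h3

theorem exists_dec (T ℓ : ℕ) (h : 2 * T + 1 ≤ 2 ^ ℓ) :
    ∃ dZ : (Fin ℓ → Bool) → ℤ, ∀ t : ℤ, |t| ≤ T → ∃ w, dZ w = t := by
  obtain ⟨f⟩ : Nonempty (Fin (2 * T + 1) ↪ (Fin ℓ → Bool)) :=
    Function.Embedding.nonempty_of_card_le (by simpa using h)
  refine ⟨fun w => (Function.invFun f w : Fin (2 * T + 1)) - T, fun t ht => ?_⟩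
  rw [abs_le] at ht
  refine ⟨f ⟨(t + T).toNat, by omega⟩, ?_⟩
  simp only [Function.leftInverse_invFun f.injective _]
  omega

end Crest.Agent.R350
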