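import Mathlib
import Crest.Agent.R350.Defs
import Crest.Agent.Lib.ProdProb

/-!
Row 350 (S0554): the hybrid argument (`HybridStmt`).
-/

set_option autoImplicit false

namespace Crest.Agent.R350

open Finset

namespace Hyb

/-- Real-valued count of the list entries satisfying `R`. -/
noncomputable def cnt {ι : Type} (R : ι → Prop) (l : List ι) : ℝ :=
  (l.map fun i => PP.ind (R i)).sum

lemma cnt_nonneg {ι : Type} (R : ι → Prop) (l : List ι) : 0 ≤ cnt R l := by
  induction l with
  | nil => simp [cnt]
  | cons a l ih =>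
    have := PP.ind_nonneg (R a)
    simp only [cnt, List.map_cons, List.sum_cons] at ih ⊢
    linarith

lemma cnt_cons {ι : Type} (R : ι → Prop) (a : ι) (l : List ι) :
    cnt R (a :: l) = PP.ind (R a) + cnt R l := by simp [cnt]

lemma ind_le_cnt {ι : Type} (R : ι → Prop) (l : List ι) : PP.ind (∃ i ∈ l, R i) ≤ cnt R l := by
  induction l with
  | nil => simp [cnt, PP.ind]
  | cons a l ih =>
    rw [cnt_cons]
    refine le_trans (PP.ind_mono (Q := R a ∨ ∃ i ∈ l, R i) ?_) ((PP.ind_or_le _ _).trans ?_)
    · rintro ⟨i, hi, hR⟩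
      rcases List.mem_cons.1 hi with rfl | hi
      · exact Or.inl hR
      · exact Or.inr ⟨i, hi, hR⟩
    · linarith

lemma sum_cnt_le {ι τ : Type} [Fintype τ] (R : τ → ι → Prop)
    (hR : ∀ i t t', R t i → R t' i → t = t') (l : List ι) :
    ∑ t, cnt (R t) l ≤ l.length := by
  induction l with
  | nil => simp [cnt]
  | cons a l ih =>
    simp only [cnt_cons, sum_add_distrib, List.length_cons]
    have : ∑ t, PP.ind (R t a) ≤ 1 := by
      by_cases h : ∃ t, R t a
      · obtain ⟨t, ht⟩ := h
        rw [Finset.sum_eq_single t]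
        · exact PP.ind_le_one _
        · intro t' _ hne
          exact PP.ind_neg fun h' => hne (hR a t' t h' ht)
        · intro h; exact absurd (mem_univ t) h
      · push Not at h
        rw [Finset.sum_eq_zero fun t _ => PP.ind_neg (h t)]; norm_num
    push_cast
    linarith

/-- resampling one coordinate -/
lemma Ex_resample {ι κ : Type} [Fintype ι] [DecidableEq ι] [Fintype κ] {w : κ → ℝ}
    (hw : PP.IsProb w) (c : ι) (G : (ι → κ) → ℝ) :
    PP.Ex w (fun ω => ∑ k, w k * G (Function.update ω c k)) = PP.Ex w G := by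
  classical
  have hsplit : ∀ ω : ι → κ, PP.wt w ω = w (ω c) * ∏ i ∈ univ.erase c, w (ω i) := fun ω =>
    (Finset.mul_prod_erase univ (fun i => w (ω i)) (mem_univ c)).symm
  have hupd : ∀ (ω : ι → κ) (k : κ), ∏ i ∈ univ.erase c, w (Function.update ω c k i) =
      ∏ i ∈ univ.erase c, w (ω i) := fun ω k =>
    prod_congr rfl fun i hi => by rw [Function.update_of_ne (ne_of_mem_erase hi)]
  -- the involution (ω, k) ↦ (update ω c k, ω c)
  let e : (ι → κ) × κ ≃ (ι → κ) × κ :=
    { toFun := fun q => (Function.update q.1 c q.2, q.1 c)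
      invFun := fun q => (Function.update q.1 c q.2, q.1 c)
      left_inv := fun q => by simp
      right_inv := fun q => by simp }
  have h1 : PP.Ex w (fun ω => ∑ k, w k * G (Function.update ω c k)) =
      ∑ q : (ι → κ) × κ, PP.wt w q.1 * (w q.2 * G (Function.update q.1 c q.2)) := by
    unfold PP.Ex
    rw [Fintype.sum_prod_type]
    simp only [mul_sum]
  have h2 : PP.Ex w G = ∑ q : (ι → κ) × κ, PP.wt w q.1 * (w q.2 * G q.1) := by
    unfold PP.Ex
    rw [Fintype.sum_prod_type]
    refine sum_congr rfl fun ω _ => ?_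
    dsimp only
    rw [← mul_sum, ← sum_mul, hw.sum_one, one_mul]
  rw [h1, h2]
  refine Fintype.sum_equiv e _ _ fun q => ?_
  show PP.wt w q.1 * (w q.2 * G (Function.update q.1 c q.2)) =
    PP.wt w (Function.update q.1 c q.2) * (w (q.1 c) * G (Function.update q.1 c q.2))
  rw [hsplit q.1, hsplit (Function.update q.1 c q.2), hupd, Function.update_self]
  ring

section res
variable {ι κ : Type}

/-- merge a base input with a hint -/
def mg (h : ι → Option κ) (x : ι → Bool) (y : κ → Bool) (i : ι) : Bool :=
  match h i with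
  | some q => y q
  | none => x i

open Classical in
/-- the restricted tree -/
noncomputable def res (h : ι → Option κ) (al : ι → Prop) (x : ι → Bool) : Tr ι → ℕ → Tr κ
  | .ans _, _ => .ans false
  | .rd i t₀ t₁, n =>
    match h i with
    | some q =>
      match n with
      | 0 => .ans true
      | m + 1 => .rd q (res h al x t₀ m) (res h al x t₁ m)
    | none => if al i then .ans true else if x i then res h al x t₁ n else res h al x t₀ n

lemma res_depth (h : ι → Option κ) (al : ι → Prop) (x : ι → Bool) (t : Tr ι) (n : ℕ) :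
    (res h al x t n).depth ≤ n := by
  induction t generalizing n with
  | ans b => simp [res, Tr.depth]
  | rd i t₀ t₁ h₀ h₁ =>
    rw [res]
    split
    · split
      · simp [Tr.depth]
      · rename_i m
        have := h₀ m
        have := h₁ m
        simp only [Tr.depth]
        omega
    · split_ifs
      · simp [Tr.depth]
      · exact h₁ n
      · exact h₀ n

lemma res_true (h : ι → Option κ) (al : ι → Prop) (hal : ∀ i, al i → h i = none) (x : ι → Bool)
    (y : κ → Bool) (t : Tr ι) (n : ℕ) (ha : ∃ i ∈ t.qs (mg h x y), al i) :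
    (res h al x t n).eval y = true := by
  induction t generalizing n with
  | ans b => simp [Tr.qs] at ha
  | rd i t₀ t₁ h₀ h₁ =>
    obtain ⟨j, hj, haj⟩ := ha
    simp only [Tr.qs, List.mem_cons] at hj
    rw [res]
    split
    · rename_i q hq
      have hne : j ≠ i := fun e => by rw [e] at haj; rw [hal i haj] at hq; cases hq
      have hm : mg h x y i = y q := by simp [mg, hq]
      rw [hm] at hj
      replace hj := hj.resolve_left hne
      split
      · simp [Tr.eval]
      · rename_i m
        simp only [Tr.eval]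
        split_ifs at hj ⊢
        · exact h₁ m ⟨j, hj, haj⟩
        · exact h₀ m ⟨j, hj, haj⟩
    · rename_i hq
      have hm : mg h x y i = x i := by simp [mg, hq]
      rw [hm] at hj
      by_cases hi : al i
      · rw [if_pos hi]; rfl
      · rw [if_neg hi]
        have hne : j ≠ i := fun e => hi (e ▸ haj)
        replace hj := hj.resolve_left hne
        split_ifs at hj ⊢
        · exact h₁ n ⟨j, hj, haj⟩
        · exact h₀ n ⟨j, hj, haj⟩

lemma res_cases (h : ι → Option κ) (al : ι → Prop) (x : ι → Bool)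
    (y : κ → Bool) (t : Tr ι) (n : ℕ) (he : (res h al x t n).eval y = true) :
    (∃ i ∈ t.qs (mg h x y), al i) ∨ (n : ℝ) + 1 ≤ cnt (fun i => h i ≠ none) (t.qs (mg h x y)) := by
  induction t generalizing n with
  | ans b => simp [res, Tr.eval] at he
  | rd i t₀ t₁ h₀ h₁ =>
    rw [res] at he
    simp only [Tr.qs, cnt_cons, List.mem_cons]
    split at he
    · rename_i q hq
      have hm : mg h x y i = y q := by simp [mg, hq]
      have hi : PP.ind (h i ≠ none) = 1 := PP.ind_pos (by simp [hq])
      rw [hm, hi]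
      split at he
      · right
        have := cnt_nonneg (fun i => h i ≠ none)
          (if y q = true then t₁.qs (mg h x y) else t₀.qs (mg h x y))
        push_cast
        linarith
      · rename_i m
        simp only [Tr.eval] at he
        split_ifs at he ⊢
        · rcases h₁ m he with ⟨j, hj, haj⟩ | hc
          · exact Or.inl ⟨j, Or.inr hj, haj⟩
          · right; push_cast; linarith
        · rcases h₀ m he with ⟨j, hj, haj⟩ | hc
          · exact Or.inl ⟨j, Or.inr hj, haj⟩
          · right; push_cast; linarith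
    · rename_i hq
      have hm : mg h x y i = x i := by simp [mg, hq]
      have hi := PP.ind_nonneg (h i ≠ none)
      rw [hm]
      by_cases hai : al i
      · exact Or.inl ⟨i, Or.inl rfl, hai⟩
      · rw [if_neg hai] at he
        split_ifs at he ⊢
        · rcases h₁ n he with ⟨j, hj, haj⟩ | hc
          · exact Or.inl ⟨j, Or.inr hj, haj⟩
          · right; linarith
        · rcases h₀ n he with ⟨j, hj, haj⟩ | hc
          · exact Or.inl ⟨j, Or.inr hj, haj⟩
          · right; linarith

lemma ind_eq (b : Bool) : ind b = PP.ind (b = true) := by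
  cases b <;> simp [ind, PP.ind]

/-- step (c): changing the law of the hint -/
lemma change_law [Fintype κ] [DecidableEq κ] (h : ι → Option κ) (al : ι → Prop)
    (hal : ∀ i, al i → h i = none) (x : ι → Bool) (t : Tr ι) (D : ℕ) (δ : ℝ)
    (D0 D1 : (κ → Bool) → ℝ) (h0 : ∀ y, 0 ≤ D0 y) (h1 : ∀ y, 0 ≤ D1 y)
    (hδ : ∀ t : Tr κ, t.depth ≤ D →
      ∑ y, D1 y * ind (t.eval y) ≤ ∑ y, D0 y * ind (t.eval y) + δ) :
    ∑ y, D1 y * PP.ind (∃ i ∈ t.qs (mg h x y), al i) ≤
      ∑ y, D0 y * (PP.ind (∃ i ∈ t.qs (mg h x y), al i) +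
        cnt (fun i => h i ≠ none) (t.qs (mg h x y)) / (D + 1)) + δ := by
  refine le_trans ?_ ((hδ (res h al x t D) (res_depth _ _ _ _ _)).trans ?_)
  · refine sum_le_sum fun y _ => mul_le_mul_of_nonneg_left ?_ (h1 y)
    rw [ind_eq]
    exact PP.ind_mono (res_true h al hal x y t D)
  · refine add_le_add_left (sum_le_sum fun y _ => mul_le_mul_of_nonneg_left ?_ (h0 y)) _
    rw [ind_eq]
    have hD : (0 : ℝ) < D + 1 := by positivity
    have hc := cnt_nonneg (fun i => h i ≠ none) (t.qs (mg h x y))
    have hc' : 0 ≤ cnt (fun i => h i ≠ none) (t.qs (mg h x y)) / (D + 1) := div_nonneg hc hD.le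
    by_cases he : (res h al x t D).eval y = true
    · rw [PP.ind_pos he]
      rcases res_cases h al x y t D he with ha | hc2
      · rw [PP.ind_pos ha]; linarith
      · have := PP.ind_nonneg (∃ i ∈ t.qs (mg h x y), al i)
        have : 1 ≤ cnt (fun i => h i ≠ none) (t.qs (mg h x y)) / (D + 1) := by
          rw [le_div_iff₀ hD]; linarith
        linarith
    · rw [PP.ind_neg he]
      have := PP.ind_nonneg (∃ i ∈ t.qs (mg h x y), al i)
      linarith

end res

section main
variable {γ β κ σ : Type}

/-- the blank input -/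
def x1 (ω : γ × γ → Bool) (y : γ → κ → Bool) : Ix γ β κ σ → Bool :=
  mk (fun a b => ω (a, b)) y fun _ _ _ => false

/-- positions of the hint of column `c` -/
def hp [DecidableEq γ] (c : γ) : Ix γ β κ σ → Option κ
  | .inl _ => none
  | .inr (.inl q) => if q.1 = c then some q.2 else none
  | .inr (.inr _) => none

/-- positions of the cell `(c, A)` -/
def cell (c : γ) (A : β) : Ix γ β κ σ → Prop
  | .inl _ => False
  | .inr (.inl _) => False
  | .inr (.inr q) => q.1 = c ∧ q.2.1 = A

/-- alarm positions -/
def alm (c : γ) (A : β) (ω : γ × γ → Bool) (i : Ix γ β κ σ) : Prop :=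
  cell c A i ∨ ∃ r, i = .inl (c, r) ∧ ω (c, r) = false

lemma mg_x1 [DecidableEq γ] (c : γ) (ω : γ × γ → Bool) (y : γ → κ → Bool) (y' : κ → Bool) :
    mg (hp c) (x1 ω y : Ix γ β κ σ → Bool) y' = x1 ω (Function.update y c y') := by
  funext i
  rcases i with q | q | q
  · simp [mg, hp, x1, mk]
  · by_cases hq : q.1 = c
    · simp [mg, hp, x1, mk, hq]
    · simp [mg, hp, x1, mk, hq]
  · simp [mg, hp, x1, mk]

lemma alm_none [DecidableEq γ] (c : γ) (A : β) (ω : γ × γ → Bool) (i : Ix γ β κ σ)
    (h : alm c A ω i) : hp c i = none := by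
  rcases h with h | ⟨r, rfl, _⟩
  · rcases i with q | q | q
    · rfl
    · exact h.elim
    · rfl
  · rfl

/-- step (b) -/
lemma alm_of_cell [DecidableEq γ] (c : γ) (A : β) (ω : γ × γ → Bool) (y : γ → κ → Bool)
    (t : Tr (Ix γ β κ σ))
    (h : ∃ i ∈ t.qs (x1 (fun q => if q.1 = c then true else ω q) y), cell c A i) :
    ∃ i ∈ t.qs (x1 ω y), alm c A ω i := by
  by_contra hc
  push Not at hc
  have := (t.congr_of_agree (x := x1 ω y) (x' := x1 (fun q => if q.1 = c then true else ω q) y)
    fun i hi => ?_).1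
  · rw [this] at h
    obtain ⟨i, hi, hci⟩ := h
    exact hc i hi (Or.inl hci)
  · rcases i with q | q | q
    · obtain ⟨a, r⟩ := q
      simp only [x1, mk]
      split_ifs with ha
      · subst ha
        by_contra hne
        refine hc _ hi (Or.inr ⟨r, rfl, ?_⟩)
        cases h' : ω (a, r)
        · rfl
        · exact absurd h'.symm hne
      · rfl
    · rfl
    · rfl

/-- step (a) -/
lemma third_le [DecidableEq γ] [DecidableEq β] (F : (Ix γ β κ σ → Bool) → Bool)
    (c : γ) (A : β) (z : γ → γ → Bool) (y : γ → κ → Bool) (w : σ → Bool)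
    (h0 : F (mk z y fun _ _ _ => false) = false)
    (h1 : F (mk z y fun c' A' s => if c' = c ∧ A' = A then w s else false) = true)
    {s : ℕ} (p : Fin s → ℝ) (T : Fin s → Tr (Ix γ β κ σ)) (hp0 : ∀ j, 0 ≤ p j)
    (hp1 : ∑ j, p j = 1) (hT : ∀ x, 2 / 3 ≤ ∑ j, if (T j).eval x = F x then p j else 0) :
    1 / 3 ≤ ∑ j, p j * PP.ind (∃ i ∈ (T j).qs (mk z y fun _ _ _ => false), cell c A i) := by
  have a0 := hT (mk z y fun _ _ _ => false)
  have a1 := hT (mk z y fun c' A' s => if c' = c ∧ A' = A then w s else false)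
  rw [h0] at a0
  rw [h1] at a1
  have key : ∀ j, (if (T j).eval (mk z y fun _ _ _ => false) = false then p j else 0) +
      (if (T j).eval (mk z y fun c' A' s => if c' = c ∧ A' = A then w s else false) = true
        then p j else 0) ≤
      p j + p j * PP.ind (∃ i ∈ (T j).qs (mk z y fun _ _ _ => false), cell c A i) := by
    intro j
    have hj := hp0 j
    by_cases hr : ∃ i ∈ (T j).qs (mk z y fun _ _ _ => false), cell c A i
    · rw [PP.ind_pos hr]
      split_ifs <;> linarith
    · rw [PP.ind_neg hr]
      push Not at hr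
      have := ((T j).congr_of_agree (x := mk z y fun _ _ _ => false)
        (x' := mk z y fun c' A' s => if c' = c ∧ A' = A then w s else false) fun i hi => ?_).2
      · rw [this]
        cases (T j).eval (mk z y fun _ _ _ => false) <;> simp
      · rcases i with q | q | q
        · rfl
        · rfl
        · have := hr _ hi
          simp only [cell] at this
          simp only [mk, if_neg this]
  have := sum_le_sum fun j (_ : j ∈ (univ : Finset (Fin s))) => key j
  rw [sum_add_distrib, sum_add_distrib, hp1] at this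
  linarith

/-- step (d): the grid part -/
lemma grid_bound [Fintype γ] [DecidableEq γ] [DecidableEq β] [DecidableEq κ] [DecidableEq σ]
    {p : ℝ} (h0 : 0 ≤ p) (h1 : p ≤ 1) (y : γ → κ → Bool) (t : Tr (Ix γ β κ σ)) (q : γ × γ) :
    PP.Ex (PP.bw (1 - p)) (fun ω : γ × γ → Bool =>
        PP.ind (Sum.inl q ∈ t.qs (x1 ω y) ∧ ω q = false)) =
      p * PP.Ex (PP.bw (1 - p)) (fun ω : γ × γ → Bool => PP.ind (Sum.inl q ∈ t.qs (x1 ω y))) := by
  have hw := PP.isProb_bw (p := 1 - p) (by linarith) (by linarith)
  rw [← Ex_resample hw q, ← PP.Ex_const_mul]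
  congr 1
  funext ω
  have hx : ∀ b, (x1 (Function.update ω q b) y : Ix γ β κ σ → Bool) =
      Function.update (x1 ω y) (Sum.inl q) b := by
    intro b
    funext i
    rcases i with r | r | r
    · by_cases hr : r = q
      · subst hr; simp [x1, mk]
      · rw [Function.update_of_ne (by simpa using hr)]
        simp only [x1, mk]
        rw [Function.update_of_ne (by simpa using hr)]
    · rw [Function.update_of_ne (by simp)]; rfl
    · rw [Function.update_of_ne (by simp)]; rfl
  simp only [hx, Tr.mem_qs_update, Function.update_self, Fintype.sum_bool, PP.bw]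
  by_cases hq : Sum.inl q ∈ t.qs (x1 ω y) <;> simp [PP.ind, hq]

end main

end Hyb

open Hyb in
theorem hybridStmt : HybridStmt := by
  intro γ β κ σ _ _ _ _ _ _ _ _ _ F Good D0 D1 η δ p D d hF0 hF1 hD0 hD1 hη hδ hp0 hp1 hRC
  classical
  obtain ⟨s, pr, T, hpr0, hpr1, hTd, hT⟩ := hRC
  have hw := PP.isProb_bw (p := 1 - p) (by linarith) (by linarith)
  have hw0 : PP.IsProb D0 := ⟨hD0.1, hD0.2⟩
  have hMpos : (0 : ℝ) < (Fintype.card γ : ℝ) := by exact_mod_cast Fintype.card_pos
  have hNpos : (0 : ℝ) < (Fintype.card β : ℝ) := by exact_mod_cast Fintype.card_pos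
  obtain ⟨M, hM⟩ : ∃ M : ℝ, (Fintype.card γ : ℝ) = M := ⟨_, rfl⟩
  obtain ⟨N, hN⟩ : ∃ N : ℝ, (Fintype.card β : ℝ) = N := ⟨_, rfl⟩
  rw [hM] at hMpos
  rw [hN] at hNpos
  rw [hM, hN]
  have hDpos : (0 : ℝ) < D + 1 := by positivity
  -- the quantities on the blank input
  let a : Fin s → γ → β → (γ × γ → Bool) → (γ → κ → Bool) → ℝ := fun j c A ω y =>
    cnt (cell c A) ((T j).qs (x1 ω y))
  let b : Fin s → γ → (γ × γ → Bool) → (γ → κ → Bool) → ℝ := fun j c ω y =>
    ∑ r, PP.ind (Sum.inl (c, r) ∈ (T j).qs (x1 ω y) ∧ ω (c, r) = false)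
  let g : Fin s → γ → (γ × γ → Bool) → (γ → κ → Bool) → ℝ := fun j c ω y =>
    cnt (fun i => hp c i ≠ none) ((T j).qs (x1 ω y))
  have halm : ∀ j c A ω y, PP.ind (∃ i ∈ (T j).qs (x1 ω y), alm c A ω i) ≤
      a j c A ω y + b j c ω y := by
    intro j c A ω y
    refine le_trans (PP.ind_mono (Q := (∃ i ∈ (T j).qs (x1 ω y), cell c A i) ∨
      ∃ r ∈ (univ : Finset γ), Sum.inl (c, r) ∈ (T j).qs (x1 ω y) ∧ ω (c, r) = false) ?_)
      ((PP.ind_or_le _ _).trans (add_le_add (ind_le_cnt _ _) (PP.ind_exists_le _ _)))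
    rintro ⟨i, hi, h | ⟨r, rfl, hr⟩⟩
    · exact Or.inl ⟨i, hi, h⟩
    · exact Or.inr ⟨r, mem_univ _, hi, hr⟩
  -- the bound for fixed `c`, `A`, `ω`
  have step : ∀ c A (ω : γ × γ → Bool),
      (η - ∑ j : γ, PP.ind (∀ q ∈ (univ : Finset γ).image (fun r => (j, r)), ω q = true)) / 3 ≤
      δ + ∑ j, pr j * PP.Ex D0 (fun y => a j c A ω y + b j c ω y + g j c ω y / (D + 1)) := by
    intro c A ω
    have hj : ∀ j, PP.Ex D0 (fun y => ∑ y', D1 A y' *
        PP.ind (∃ i ∈ (T j).qs (x1 (fun q => if q.1 = c then true else ω q)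
          (Function.update y c y')), cell c A i)) ≤
        δ + PP.Ex D0 (fun y => a j c A ω y + b j c ω y + g j c ω y / (D + 1)) := by
      intro j
      rw [← Ex_resample hw0 c (fun y => a j c A ω y + b j c ω y + g j c ω y / (D + 1)),
        ← PP.Ex_const (ι := γ) hw0 δ, ← PP.Ex_add]
      refine PP.Ex_mono hw0 fun y => ?_
      have h := change_law (hp c) (alm c A ω) (alm_none c A ω) (x1 ω y) (T j) D δ D0 (D1 A)
        hD0.1 (hD1 A).1 (hδ A)
      simp only [mg_x1] at h
      refine le_trans (sum_le_sum fun y' _ => mul_le_mul_of_nonneg_left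
        (PP.ind_mono (alm_of_cell c A ω _ (T j))) ((hD1 A).1 y')) (h.trans ?_)
      rw [add_comm δ]
      refine add_le_add_left (sum_le_sum fun y' _ => mul_le_mul_of_nonneg_left ?_ (hD0.1 y')) _
      exact add_le_add_left (halm j c A ω _) _
    have hsum := sum_le_sum fun j (_ : j ∈ (univ : Finset (Fin s))) =>
      mul_le_mul_of_nonneg_left (hj j) (hpr0 j)
    simp only [mul_add, sum_add_distrib] at hsum
    rw [← sum_mul, hpr1, one_mul] at hsum
    refine le_trans ?_ hsum
    simp only [← PP.Ex_const_mul, ← PP.Ex_sum]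
    refine PP.const_le_Ex hw0 fun y => ?_
    simp only [mul_sum]
    rw [sum_comm]
    have hB := sum_nonneg fun j (_ : j ∈ (univ : Finset γ)) =>
      PP.ind_nonneg (∀ q ∈ (univ : Finset γ).image (fun r => (j, r)), ω q = true)
    have hy : ∀ y', D1 A y' * ((ind (Good A y') -
        ∑ j : γ, PP.ind (∀ q ∈ (univ : Finset γ).image (fun r => (j, r)), ω q = true)) / 3) ≤
        ∑ j, pr j * (D1 A y' * PP.ind (∃ i ∈ (T j).qs (x1 (fun q => if q.1 = c then true else ω q)
          (Function.update y c y')), cell c A i)) := by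
      intro y'
      have e : ∑ j, pr j * (D1 A y' * PP.ind (∃ i ∈ (T j).qs
          (x1 (fun q => if q.1 = c then true else ω q) (Function.update y c y')), cell c A i)) =
          D1 A y' * ∑ j, pr j * PP.ind (∃ i ∈ (T j).qs
          (x1 (fun q => if q.1 = c then true else ω q) (Function.update y c y')), cell c A i) := by
        rw [mul_sum]; exact sum_congr rfl fun _ _ => by ring
      rw [e]
      refine mul_le_mul_of_nonneg_left ?_ ((hD1 A).1 y')
      have hnn : 0 ≤ ∑ j, pr j * PP.ind (∃ i ∈ (T j).qs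
          (x1 (fun q => if q.1 = c then true else ω q) (Function.update y c y')), cell c A i) :=
        sum_nonneg fun j _ => mul_nonneg (hpr0 j) (PP.ind_nonneg _)
      by_cases hG : Good A y' = true
      · by_cases hcol : ∀ j, j ≠ c → ∃ i, ω (j, i) = false
        · obtain ⟨w, hw'⟩ := hF1 c A (fun a' r => if a' = c then true else ω (a', r))
            (Function.update y c y') (fun i => by simp)
            (fun j hj => by simpa [hj] using hcol j hj) (by simpa using hG)
          have h3 := third_le F c A _ _ w (hF0 _ _) hw' pr T hpr0 hpr1 hT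
          have : ind (Good A y') = 1 := by simp [ind, hG]
          rw [this]
          refine le_trans ?_ h3
          linarith
        · push Not at hcol
          obtain ⟨j, _, hj⟩ := hcol
          have h1 : PP.ind (∀ q ∈ (univ : Finset γ).image (fun r => (j, r)), ω q = true) = 1 := by
            refine PP.ind_pos fun q hq => ?_
            obtain ⟨r, _, rfl⟩ := mem_image.1 hq
            simpa using hj r
          have h2 := single_le_sum (f := fun j : γ =>
            PP.ind (∀ q ∈ (univ : Finset γ).image (fun r => (j, r)), ω q = true))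
            (fun j _ => PP.ind_nonneg _) (mem_univ j)
          have : ind (Good A y') = 1 := by simp [ind, hG]
          rw [this]
          refine le_trans ?_ hnn
          simp only [h1] at h2
          linarith
      · have : ind (Good A y') = 0 := by simp [ind, hG]
        rw [this]
        refine le_trans ?_ hnn
        linarith
    refine le_trans ?_ (sum_le_sum fun y' _ => hy y')
    simp only [← mul_div_assoc, mul_sub, ← sum_div, sum_sub_distrib, ← sum_mul, (hD1 A).2, one_mul]
    have := hη A
    linarith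
  -- average over `ω`
  have step2 : ∀ c A, (η - M * (1 - p) ^ Fintype.card γ) / 3 ≤
      δ + ∑ j, pr j * PP.Ex (PP.bw (1 - p)) (fun ω =>
        PP.Ex D0 (fun y => a j c A ω y + b j c ω y + g j c ω y / (D + 1))) := by
    intro c A
    have h := PP.Ex_mono hw fun ω : γ × γ → Bool => step c A ω
    simp only [div_eq_mul_inv _ (3 : ℝ)] at h ⊢
    rw [PP.Ex_mul_const, PP.Ex_sub, PP.Ex_const hw, PP.Ex_sum, PP.Ex_add, PP.Ex_const hw,
      PP.Ex_sum] at h
    simp only [PP.Ex_const_mul, PP.Ex_bw_subset] at h
    have hc : ∀ j : γ, ((univ : Finset γ).image (fun r => (j, r))).card = Fintype.card γ := by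
      intro j
      rw [card_image_of_injective _ (fun r r' e => by simpa using e), card_univ]
    simp only [hc, sum_const, card_univ, nsmul_eq_mul, hM] at h
    exact h
  -- sum over `c`, `A`
  have hlen : ∀ j (x : Ix γ β κ σ → Bool), (((T j).qs x).length : ℝ) ≤ d := fun j x => by
    exact_mod_cast ((T j).length_qs_le x).trans (hTd j)
  have tot : ∀ j, ∑ c, ∑ A, PP.Ex (PP.bw (1 - p)) (fun ω =>
        PP.Ex D0 (fun y => a j c A ω y + b j c ω y + g j c ω y / (D + 1))) ≤
      d + N * (p * d) + N * (d / (D + 1)) := by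
    intro j
    simp only [PP.Ex_add, sum_add_distrib]
    refine add_le_add (add_le_add ?_ ?_) ?_
    · simp only [← PP.Ex_sum]
      refine PP.Ex_le_const hw fun ω => PP.Ex_le_const hw0 fun y => ?_
      rw [← Fintype.sum_prod_type']
      refine (sum_cnt_le (fun q : γ × β => cell q.1 q.2) ?_ _).trans (hlen j _)
      rintro (i | i | i) t t' h h'
      · exact h.elim
      · exact h.elim
      · exact Prod.ext (h.1.symm.trans h'.1) (h.2.symm.trans h'.2)
    · simp only [sum_const, card_univ, nsmul_eq_mul, hN]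
      rw [← mul_sum]
      refine mul_le_mul_of_nonneg_left ?_ hNpos.le
      have e : ∀ c, PP.Ex (PP.bw (1 - p)) (fun ω => PP.Ex D0 (fun y => b j c ω y)) =
          PP.Ex D0 (fun y => p * PP.Ex (PP.bw (1 - p)) (fun ω =>
            ∑ r, PP.ind (Sum.inl (c, r) ∈ (T j).qs (x1 ω y)))) := by
        intro c
        rw [PP.Ex_comm]
        congr 1
        funext y
        simp only [b]
        rw [PP.Ex_sum, PP.Ex_sum, mul_sum]
        exact sum_congr rfl fun r _ => grid_bound hp0 hp1 y (T j) (c, r)
      simp only [e]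
      rw [← PP.Ex_sum]
      refine PP.Ex_le_const hw0 fun y => ?_
      rw [← mul_sum, ← PP.Ex_sum]
      refine mul_le_mul_of_nonneg_left (PP.Ex_le_const hw fun ω => ?_) hp0
      rw [← Fintype.sum_prod_type' (fun c r => PP.ind (Sum.inl (c, r) ∈ (T j).qs (x1 ω y)))]
      refine le_trans (sum_le_sum fun q _ => ?_)
        ((sum_cnt_le (fun (q : γ × γ) (i : Ix γ β κ σ) => i = Sum.inl q) ?_ _).trans
          (hlen j (x1 ω y)))
      · refine le_trans (PP.ind_mono fun h => ?_) (ind_le_cnt _ _)
        exact ⟨_, h, rfl⟩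
      · intro i t t' h h'
        simpa using h.symm.trans h'
    · simp only [sum_const, card_univ, nsmul_eq_mul, hN]
      rw [← mul_sum]
      refine mul_le_mul_of_nonneg_left ?_ hNpos.le
      simp only [← PP.Ex_sum]
      refine PP.Ex_le_const hw fun ω => PP.Ex_le_const hw0 fun y => ?_
      rw [← sum_div]
      refine div_le_div_of_nonneg_right ?_ hDpos.le
      refine (sum_cnt_le (fun (c : γ) (i : Ix γ β κ σ) => hp c i ≠ none) ?_ _).trans (hlen j _)
      rintro (i | i | i) t t' h h'
      · exact (h rfl).elim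
      · simp only [hp] at h h'
        by_contra hne
        split_ifs at h h' with h1 h2
        · exact hne (h1.symm.trans h2)
        · exact h' rfl
        all_goals exact h rfl
      · exact (h rfl).elim
  have fin := sum_le_sum fun c (_ : c ∈ (univ : Finset γ)) =>
    sum_le_sum fun A (_ : A ∈ (univ : Finset β)) => step2 c A
  simp only [sum_add_distrib, sum_const, card_univ, nsmul_eq_mul, hM, hN] at fin
  have hswap : ∑ c, ∑ A, ∑ j, pr j * PP.Ex (PP.bw (1 - p)) (fun ω =>
        PP.Ex D0 (fun y => a j c A ω y + b j c ω y + g j c ω y / (D + 1))) =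
      ∑ j, pr j * ∑ c, ∑ A, PP.Ex (PP.bw (1 - p)) (fun ω =>
        PP.Ex D0 (fun y => a j c A ω y + b j c ω y + g j c ω y / (D + 1))) := by
    simp only [mul_sum]
    rw [sum_comm (s := (univ : Finset (Fin s)))]
    exact sum_congr rfl fun c _ => sum_comm
  rw [hswap] at fin
  have hfin2 := sum_le_sum fun j (_ : j ∈ (univ : Finset (Fin s))) =>
    mul_le_mul_of_nonneg_left (tot j) (hpr0 j)
  rw [← sum_mul, hpr1, one_mul] at hfin2
  have hfin3 : M * (N * ((η - M * (1 - p) ^ Fintype.card γ) / 3)) ≤
      M * (N * δ) + (d + N * (p * d) + N * (d / (D + 1))) := fin.trans (add_le_add_right hfin2 _)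
  have e : δ + (d : ℝ) / M * (1 / N + p + 1 / (D + 1)) =
      (M * (N * δ) + (d + N * (p * d) + N * (d / (D + 1)))) / (M * N) := by
    field_simp
  rw [e, le_div_iff₀ (mul_pos hMpos hNpos)]
  linarith

end Crest.Agent.R350
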