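import Crest.Agent.R350.Defs

/-!
Row 350 (S0554): level-`j` Fourier growth of decision trees, by the moment method.
-/

set_option autoImplicit false
set_option linter.unusedSectionVars false

namespace Crest.Agent.R350

open Finset

namespace Lev

variable {ι : Type} [DecidableEq ι]

/-- Flip one bit. -/
def flp (z : ι → Bool) (i : ι) : ι → Bool := Function.update z i (!z i)

theorem flp_same (z : ι → Bool) (i : ι) : flp z i i = !z i := by simp [flp]

theorem flp_ne (z : ι → Bool) {i j : ι} (h : j ≠ i) : flp z i j = z j := by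
  simp [flp, h]

theorem flp_flp (z : ι → Bool) (i : ι) : flp (flp z i) i = z := by
  funext j
  by_cases h : j = i
  · subst h; simp [flp]
  · rw [flp_ne _ h, flp_ne _ h]

theorem sg_not (b : Bool) : sg (!b) = -sg b := by cases b <;> simp [sg]

theorem sg_abs (b : Bool) : |sg b| = 1 := by cases b <;> simp [sg]

/-- A sum that is odd under flipping an adaptively chosen bit vanishes. -/
theorem sum_flip_eq_zero [Fintype ι] (Φ : (ι → Bool) → ℝ) (c : (ι → Bool) → Option ι)
    (h0 : ∀ z, c z = none → Φ z = 0)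
    (h1 : ∀ z i, c z = some i → c (flp z i) = some i ∧ Φ (flp z i) = -Φ z) : ∑ z, Φ z = 0 := by
  let σ : (ι → Bool) → (ι → Bool) := fun z => match c z with
    | none => z
    | some i => flp z i
  have hσn : ∀ z, c z = none → σ z = z := fun z h => by simp only [σ, h]
  have hσs : ∀ z i, c z = some i → σ z = flp z i := fun z i h => by simp only [σ, h]
  have hinv : Function.Involutive σ := by
    intro z
    cases h : c z with
    | none => rw [hσn z h, hσn z h]
    | some i => rw [hσs z i h, hσs _ i (h1 z i h).1, flp_flp]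
  have hΦ : ∀ z, Φ (σ z) = -Φ z := by
    intro z
    cases h : c z with
    | none => rw [hσn z h, h0 z h]; simp
    | some i => rw [hσs z i h, (h1 z i h).2]
  have h2 : ∑ z, Φ (σ z) = ∑ z, Φ z := hinv.bijective.sum_comp Φ
  simp only [hΦ, Finset.sum_neg_distrib] at h2
  linarith

/-- The homogeneous multilinear form of degree `j` with coefficients `c`, restricted to `R`. -/
noncomputable def P (j : ℕ) (c : Finset ι → ℝ) (R : Finset ι) (x : ι → ℝ) : ℝ :=
  ∑ T ∈ powersetCard j R, c T * ∏ i ∈ T, x i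

theorem P_zero (c : Finset ι → ℝ) (R : Finset ι) (x : ι → ℝ) : P 0 c R x = c ∅ := by
  simp [P]

theorem P_empty (j : ℕ) (c : Finset ι → ℝ) (x : ι → ℝ) : P (j + 1) c ∅ x = 0 := by
  unfold P
  rw [powersetCard_eq_empty.2 (by simp), sum_empty]

theorem P_insert (j : ℕ) (c : Finset ι → ℝ) {R : Finset ι} {i : ι} (hi : i ∉ R) (x : ι → ℝ) :
    P (j + 1) c (insert i R) x = P (j + 1) c R x + x i * P j (fun T => c (insert i T)) R x := by
  unfold P
  rw [powersetCard_succ_insert hi, sum_union, sum_image, mul_sum]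
  · congr 1
    refine sum_congr rfl fun T hT => ?_
    have : i ∉ T := fun h => hi ((mem_powersetCard.1 hT).1 h)
    rw [prod_insert this]; ring
  · intro T hT T' hT' h
    have h1 : i ∉ T := fun h => hi ((mem_powersetCard.1 (mem_coe.1 hT)).1 h)
    have h2 : i ∉ T' := fun h => hi ((mem_powersetCard.1 (mem_coe.1 hT')).1 h)
    rw [← erase_insert h1, ← erase_insert h2]
    exact congrArg (fun S => erase S i) h
  · rw [disjoint_left]
    intro T hT hT'
    obtain ⟨T', -, rfl⟩ := mem_image.1 hT'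
    exact hi ((mem_powersetCard.1 hT).1 (mem_insert_self _ _))

theorem P_congr (j : ℕ) (c : Finset ι → ℝ) {R : Finset ι} {x y : ι → ℝ}
    (h : ∀ i ∈ R, x i = y i) : P j c R x = P j c R y := by
  unfold P
  refine sum_congr rfl fun T hT => ?_
  rw [prod_congr rfl fun i hi => h i ((mem_powersetCard.1 hT).1 hi)]

/-- Second-order remainder of a power. -/
theorem rem_bound (M u : ℝ) (m : ℕ) :
    |(M + u) ^ (m + 2) - M ^ (m + 2) - (m + 2) * M ^ (m + 1) * u| ≤
      (m + 1) ^ 2 * (|M| + |u|) ^ m * u ^ 2 := by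
  induction m with
  | zero =>
    have : (M + u) ^ (0 + 2) - M ^ (0 + 2) - ((0 : ℕ) + 2 : ℝ) * M ^ (0 + 1) * u = u ^ 2 := by
      push_cast; ring
    rw [this, abs_of_nonneg (sq_nonneg u)]; simp
  | succ m ih =>
    have e : (M + u) ^ (m + 1 + 2) - M ^ (m + 1 + 2) - ((m + 1 : ℕ) + 2 : ℝ) * M ^ (m + 1 + 1) * u =
        (M + u) * ((M + u) ^ (m + 2) - M ^ (m + 2) - (m + 2) * M ^ (m + 1) * u) +
          (m + 2) * M ^ (m + 1) * u ^ 2 := by
      push_cast; ring
    rw [e]
    set X := |M| + |u| with hX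
    have hX0 : 0 ≤ X := by positivity
    have h1 : |M + u| ≤ X := abs_add_le _ _
    have h2 : |M| ^ (m + 1) ≤ X ^ (m + 1) :=
      pow_le_pow_left₀ (abs_nonneg _) (by have := abs_nonneg u; linarith) _
    have h3 : |(m + 2 : ℝ) * M ^ (m + 1) * u ^ 2| ≤ (m + 2) * X ^ (m + 1) * u ^ 2 := by
      rw [abs_mul, abs_mul, abs_pow, abs_of_nonneg (sq_nonneg u),
        abs_of_nonneg (by positivity : (0 : ℝ) ≤ m + 2)]
      gcongr
    have h4 : |(M + u) * ((M + u) ^ (m + 2) - M ^ (m + 2) - (m + 2) * M ^ (m + 1) * u)| ≤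
        X * ((m + 1) ^ 2 * X ^ m * u ^ 2) := by
      rw [abs_mul]
      exact mul_le_mul h1 ih (abs_nonneg _) hX0
    refine (abs_add_le _ _).trans ((add_le_add h4 h3).trans ?_)
    have h5 : 0 ≤ X ^ (m + 1) * u ^ 2 := by positivity
    have h6 : X * ((m + 1 : ℝ) ^ 2 * X ^ m * u ^ 2) + (m + 2) * X ^ (m + 1) * u ^ 2 =
        ((m + 1) ^ 2 + (m + 2)) * (X ^ (m + 1) * u ^ 2) := by ring
    rw [h6]
    push_cast
    rw [mul_assoc]
    refine mul_le_mul_of_nonneg_right ?_ h5
    have : (0 : ℝ) ≤ m := Nat.cast_nonneg m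
    nlinarith

/-- The constant of the pointwise step. -/
def K (q : ℕ) : ℝ := (2 * q + 1) ^ 2 * 4 ^ q

theorem one_le_K (q : ℕ) : 1 ≤ K q := by
  unfold K
  have h1 : (1 : ℝ) ≤ (2 * q + 1) ^ 2 := one_le_pow₀ (by have : (0 : ℝ) ≤ q := Nat.cast_nonneg q; linarith)
  have h2 : (1 : ℝ) ≤ 4 ^ q := one_le_pow₀ (by norm_num)
  nlinarith

theorem step_bound (q : ℕ) (D : ℝ) (hD : 1 ≤ D) (M u : ℝ) :
    (M + u) ^ (2 * q + 2) ≤ (1 + 1 / D) * M ^ (2 * q + 2) + (2 * q + 2) * M ^ (2 * q + 1) * u +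
      K q ^ (q + 1) * D ^ q * u ^ (2 * q + 2) := by
  have h := (le_abs_self _).trans (rem_bound M u (2 * q))
  push_cast at h
  have hK := one_le_K q
  have hM : 0 ≤ M ^ (2 * q + 2) := by rw [show 2 * q + 2 = 2 * (q + 1) by ring, pow_mul]; positivity
  have hu : 0 ≤ u ^ (2 * q + 2) := by rw [show 2 * q + 2 = 2 * (q + 1) by ring, pow_mul]; positivity
  have hKD : 1 ≤ K q * D := by nlinarith
  have key : ∀ Y : ℝ, M ^ 2 ≤ Y → u ^ 2 ≤ Y →
      (2 * q + 1 : ℝ) ^ 2 * (|M| + |u|) ^ (2 * q) * u ^ 2 ≤ K q * Y ^ q * u ^ 2 := by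
    intro Y h1 h2
    have h3 : (|M| + |u|) ^ 2 ≤ 4 * Y := by
      have a1 := sq_abs M
      have a2 := sq_abs u
      nlinarith [sq_nonneg (|M| - |u|)]
    have h4 : (|M| + |u|) ^ (2 * q) ≤ 4 ^ q * Y ^ q := by
      rw [pow_mul, ← mul_pow]
      exact pow_le_pow_left₀ (by positivity) h3 q
    unfold K
    calc (2 * q + 1 : ℝ) ^ 2 * (|M| + |u|) ^ (2 * q) * u ^ 2
        ≤ (2 * q + 1 : ℝ) ^ 2 * (4 ^ q * Y ^ q) * u ^ 2 := by gcongr
      _ = _ := by ring
  by_cases hc : K q * D * u ^ 2 ≤ M ^ 2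
  · have h2 : u ^ 2 ≤ M ^ 2 := by nlinarith [sq_nonneg u]
    have h3 := key (M ^ 2) le_rfl h2
    have h4 : K q * (M ^ 2) ^ q * u ^ 2 ≤ 1 / D * M ^ (2 * q + 2) := by
      have hD0 : 0 < D := by linarith
      rw [div_mul_eq_mul_div, le_div_iff₀ hD0]
      calc K q * (M ^ 2) ^ q * u ^ 2 * D = (M ^ 2) ^ q * (K q * D * u ^ 2) := by ring
        _ ≤ (M ^ 2) ^ q * M ^ 2 := by gcongr
        _ = _ := by ring
    have h5 : 0 ≤ K q ^ (q + 1) * D ^ q * u ^ (2 * q + 2) := by
      have : 0 ≤ K q := by linarith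
      have : 0 ≤ D := by linarith
      positivity
    nlinarith
  · push Not at hc
    have h3 := key (K q * D * u ^ 2) hc.le (by nlinarith [sq_nonneg u])
    have h4 : K q * (K q * D * u ^ 2) ^ q * u ^ 2 = K q ^ (q + 1) * D ^ q * u ^ (2 * q + 2) := by
      ring
    have h5 : 0 ≤ 1 / D * M ^ (2 * q + 2) := by
      have : 0 ≤ D := by linarith
      positivity
    nlinarith

theorem rec_bound (a : ℕ → ℝ) (D : ℕ) (hD : 1 ≤ D) (B : ℝ) (hB : 0 ≤ B) (h0 : a 0 ≤ 0)
    (h : ∀ s, s < D → a (s + 1) ≤ (1 + 1 / (D : ℝ)) * a s + B) (s : ℕ) (hs : s ≤ D) :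
    a s ≤ 3 * D * B := by
  have hD' : (1 : ℝ) ≤ D := by exact_mod_cast hD
  have hl : (1 : ℝ) ≤ 1 + 1 / D := by
    have : (0 : ℝ) ≤ 1 / D := by positivity
    linarith
  have h1 : ∀ s, s ≤ D → a s ≤ s * (1 + 1 / (D : ℝ)) ^ s * B := by
    intro s
    induction s with
    | zero => intro _; simpa using h0
    | succ s ih =>
      intro hs
      have i1 := ih (by omega)
      have i2 := h s (by omega)
      have i3 : (1 : ℝ) ≤ (1 + 1 / (D : ℝ)) ^ (s + 1) := one_le_pow₀ hl
      have i4 : (1 + 1 / (D : ℝ)) * a s ≤ (1 + 1 / (D : ℝ)) * (s * (1 + 1 / (D : ℝ)) ^ s * B) :=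
        mul_le_mul_of_nonneg_left i1 (by linarith)
      have i5 : B ≤ (1 + 1 / (D : ℝ)) ^ (s + 1) * B := le_mul_of_one_le_left hB i3
      push_cast
      calc a (s + 1) ≤ (1 + 1 / (D : ℝ)) * (s * (1 + 1 / (D : ℝ)) ^ s * B) +
            (1 + 1 / (D : ℝ)) ^ (s + 1) * B := by linarith
        _ = _ := by ring
  have h2 : (1 + 1 / (D : ℝ)) ^ s ≤ 3 := by
    calc (1 + 1 / (D : ℝ)) ^ s ≤ (1 + 1 / (D : ℝ)) ^ D := pow_le_pow_right₀ hl hs
      _ ≤ (Real.exp (1 / D)) ^ D := by
        refine pow_le_pow_left₀ (by linarith) ?_ D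
        have := Real.add_one_le_exp (1 / (D : ℝ))
        linarith
      _ = Real.exp 1 := by
        rw [← Real.exp_nat_mul]; congr 1; field_simp
      _ ≤ 3 := Real.exp_one_lt_three.le
  have h3 : (s : ℝ) ≤ D := by exact_mod_cast hs
  calc a s ≤ s * (1 + 1 / (D : ℝ)) ^ s * B := h1 s hs
    _ ≤ D * 3 * B := by gcongr
    _ = _ := by ring

variable [Fintype ι]

/-- The biased product weights. -/
noncomputable def mu (p : ι → ℝ) (z : ι → Bool) : ℝ := ∏ i, (1 + sg (z i) * p i) / 2

/-- The score of bit `i`. -/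
noncomputable def xi (p : ι → ℝ) (z : ι → Bool) (i : ι) : ℝ := sg (z i) / (1 + sg (z i) * p i)

theorem half_le {p : ι → ℝ} (hp : ∀ i, |p i| ≤ 1 / 2) (b : Bool) (i : ι) :
    1 / 2 ≤ 1 + sg b * p i := by
  have h := abs_le.1 (hp i)
  cases b <;> simp only [sg] <;> norm_num <;> linarith

theorem mu_nonneg {p : ι → ℝ} (hp : ∀ i, |p i| ≤ 1 / 2) (z : ι → Bool) : 0 ≤ mu p z :=
  prod_nonneg fun i _ => by have := half_le hp (z i) i; linarith

theorem sum_mu (p : ι → ℝ) : ∑ z, mu p z = 1 := by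
  unfold mu
  have := Finset.prod_univ_sum (fun _ : ι => (univ : Finset Bool))
    (fun i b => (1 + sg b * p i) / 2)
  rw [Fintype.piFinset_univ] at this
  rw [← this]
  refine prod_eq_one fun i _ => ?_
  simp [sg]; ring

theorem xi_sq_le {p : ι → ℝ} (hp : ∀ i, |p i| ≤ 1 / 2) (z : ι → Bool) (i : ι) :
    xi p z i ^ 2 ≤ 4 := by
  have h := half_le hp (z i) i
  have h1 : sg (z i) ^ 2 = 1 := by rw [← sq_abs, sg_abs]; norm_num
  unfold xi
  rw [div_pow, h1, div_le_iff₀ (by positivity)]
  nlinarith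

theorem weight_eq {p : ι → ℝ} (hp : ∀ i, |p i| ≤ 1 / 2) (z : ι → Bool) (T : Finset ι) :
    (∏ i, if i ∈ T then sg (z i) / 2 else (1 + sg (z i) * p i) / 2) =
      mu p z * ∏ i ∈ T, xi p z i := by
  have e : ∏ i ∈ T, xi p z i = ∏ i, if i ∈ T then xi p z i else 1 := by
    rw [prod_ite_mem, univ_inter]
  rw [e, mu, ← prod_mul_distrib]
  refine prod_congr rfl fun i _ => ?_
  split_ifs
  · have := half_le hp (z i) i
    unfold xi
    field_simp
  · simp

/-- The weight of a set containing `i` is odd in bit `i`. -/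
theorem weight_flp (p : ι → ℝ) (z : ι → Bool) {T : Finset ι} {i : ι} (hi : i ∈ T) :
    (∏ j, if j ∈ T then sg (flp z i j) / 2 else (1 + sg (flp z i j) * p j) / 2) =
      -∏ j, if j ∈ T then sg (z j) / 2 else (1 + sg (z j) * p j) / 2 := by
  rw [← mul_prod_erase _ _ (mem_univ i), ← mul_prod_erase _ _ (mem_univ i), if_pos hi, if_pos hi,
    flp_same, sg_not, prod_congr rfl fun j hj => by rw [flp_ne z (ne_of_mem_erase hj)]]
  ring

theorem mu_xi_flp {p : ι → ℝ} (hp : ∀ i, |p i| ≤ 1 / 2) (z : ι → Bool) (i : ι) :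
    mu p (flp z i) * xi p (flp z i) i = -(mu p z * xi p z i) := by
  have h1 := weight_eq hp (flp z i) {i}
  have h2 := weight_eq hp z {i}
  rw [prod_singleton] at h1 h2
  rw [← h1, ← h2, weight_flp p z (mem_singleton_self i)]

theorem xi_flp (p : ι → ℝ) (z : ι → Bool) {i j : ι} (h : j ≠ i) : xi p (flp z i) j = xi p z j := by
  unfold xi; rw [flp_ne z h]

/-- Step 1: only sets of positions that are read contribute. -/
theorem Dv_eq {p : ι → ℝ} (hp : ∀ i, |p i| ≤ 1 / 2) (t : Tr ι) (T : Finset ι) :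
    Dv (fun z => ind (t.eval z)) T p =
      ∑ z, mu p z * ind (t.eval z) *
        if T ⊆ (t.qs z).toFinset then ∏ i ∈ T, xi p z i else 0 := by
  classical
  let ch : Finset ι → Option ι := fun S => if h : S.Nonempty then some h.choose else none
  have hz := sum_flip_eq_zero
    (fun z => if T ⊆ (t.qs z).toFinset then 0 else
      ind (t.eval z) * ∏ j, if j ∈ T then sg (z j) / 2 else (1 + sg (z j) * p j) / 2)
    (fun z => ch (T \ (t.qs z).toFinset)) ?_ ?_
  · unfold Dv
    rw [← sub_eq_zero, ← sum_sub_distrib]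
    refine Eq.trans (sum_congr rfl fun z _ => ?_) hz
    rw [weight_eq hp]
    split_ifs <;> ring
  · intro z h
    have : ¬ (T \ (t.qs z).toFinset).Nonempty := fun hn => by simp [ch, hn] at h
    rw [if_pos (by rwa [sdiff_nonempty, not_not] at this)]
  · intro z i h
    have hn : (T \ (t.qs z).toFinset).Nonempty := by
      by_contra hn; simp [ch, hn] at h
    have hi : i ∈ T \ (t.qs z).toFinset := by
      simp only [ch, hn, dif_pos, Option.some.injEq] at h
      rw [← h]; exact hn.choose_spec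
    rw [mem_sdiff, List.mem_toFinset] at hi
    have hc := t.congr_of_agree (x := z) (x' := flp z i) fun j hj =>
      flp_ne z fun e => hi.2 (e ▸ hj)
    simp only [hc.1, hc.2]
    refine ⟨h, ?_⟩
    rw [weight_flp p z hi.1]
    split_ifs <;> ring

/-- The positions read in the first `s` steps. -/
def Rd (t : Tr ι) (s : ℕ) (z : ι → Bool) : Finset ι := ((t.qs z).take s).toFinset

/-- The position read at step `s + 1`, if it is new. -/
def nxt (t : Tr ι) (s : ℕ) (z : ι → Bool) : Option ι :=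
  match (t.qs z)[s]? with
  | none => none
  | some i => if i ∈ Rd t s z then none else some i

theorem Rd_succ_none {t : Tr ι} {s : ℕ} {z : ι → Bool} (h : nxt t s z = none) :
    Rd t (s + 1) z = Rd t s z := by
  unfold nxt at h
  cases h' : (t.qs z)[s]? with
  | none => simp [Rd, List.take_add_one, h']
  | some i =>
    simp only [h'] at h
    have hi : i ∈ Rd t s z := by by_contra hc; simp [hc] at h
    have : Rd t (s + 1) z = insert i (Rd t s z) := by
      ext j; simp [Rd, List.take_add_one, h']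
    rw [this, insert_eq_of_mem hi]

theorem nxt_some {t : Tr ι} {s : ℕ} {z : ι → Bool} {i : ι} (h : nxt t s z = some i) :
    (t.qs z)[s]? = some i ∧ i ∉ Rd t s z := by
  unfold nxt at h
  cases h' : (t.qs z)[s]? with
  | none => simp [h'] at h
  | some j =>
    simp only [h'] at h
    by_cases hj : j ∈ Rd t s z
    · simp [hj] at h
    · simp only [hj, if_false, Option.some.injEq] at h
      subst h
      exact ⟨rfl, hj⟩

theorem Rd_succ_some {t : Tr ι} {s : ℕ} {z : ι → Bool} {i : ι} (h : nxt t s z = some i) :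
    Rd t (s + 1) z = insert i (Rd t s z) := by
  ext j; simp [Rd, List.take_add_one, (nxt_some h).1]

theorem nxt_flp {t : Tr ι} {s : ℕ} {z : ι → Bool} {i : ι} (h : nxt t s z = some i) :
    Rd t s (flp z i) = Rd t s z ∧ nxt t s (flp z i) = some i := by
  obtain ⟨h1, h2⟩ := nxt_some h
  have h3 := t.take_succ_of_agree (x := z) (x' := flp z i) s fun j hj =>
    flp_ne z fun e => h2 (by rw [Rd, List.mem_toFinset]; exact e ▸ hj)
  have h4 : (t.qs (flp z i)).take s = (t.qs z).take s := by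
    have := congrArg (List.take s) h3
    simpa [List.take_take] using this
  have h5 : (t.qs (flp z i))[s]? = (t.qs z)[s]? := by
    have := congrArg (fun l => l[s]?) h3
    simpa [List.getElem?_take] using this
  have h6 : Rd t s (flp z i) = Rd t s z := by unfold Rd; rw [h4]
  refine ⟨h6, ?_⟩
  unfold nxt
  rw [h5, h1, h6]
  simp [h2]

/-- The moment bound for the form restricted to the positions read so far. -/
theorem moment (q j : ℕ) : ∃ C : ℝ, 0 ≤ C ∧ ∀ (ι : Type) [DecidableEq ι] [Fintype ι] (t : Tr ι)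
    (D : ℕ) (p : ι → ℝ), 1 ≤ D → (∀ i, |p i| ≤ 1 / 2) → ∀ c : Finset ι → ℝ, (∀ T, |c T| ≤ 1) →
      ∀ s, s ≤ D → ∑ z, mu p z * P j c (Rd t s z) (xi p z) ^ (2 * q + 2) ≤
        C * ((D : ℝ) ^ (q + 1) * Fintype.card ι) ^ j := by
  have hev : Even (2 * q + 2) := ⟨q + 1, by ring⟩
  induction j with
  | zero =>
    refine ⟨1, zero_le_one, fun ι _ _ t D p _ hp c hc s _ => ?_⟩
    simp only [P_zero, ← sum_mul, sum_mu, pow_zero, mul_one, one_mul]
    rw [← hev.pow_abs]
    exact pow_le_one₀ (abs_nonneg _) (hc ∅)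
  | succ j ih =>
    obtain ⟨C, hC, ih⟩ := ih
    have hK : 0 ≤ K q := zero_le_one.trans (one_le_K q)
    refine ⟨3 * K q ^ (q + 1) * 4 ^ (q + 1) * C, by positivity, fun ι _ _ t D p hD hp c hc s hs => ?_⟩
    have hD' : (1 : ℝ) ≤ D := by exact_mod_cast hD
    have := rec_bound (fun s => ∑ z, mu p z * P (j + 1) c (Rd t s z) (xi p z) ^ (2 * q + 2)) D hD
      (K q ^ (q + 1) * D ^ q * (4 ^ (q + 1) * (Fintype.card ι *
        (C * ((D : ℝ) ^ (q + 1) * Fintype.card ι) ^ j)))) (by positivity) ?_ ?_ s hs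
    · refine this.trans (le_of_eq ?_)
      ring
    · simp [Rd, P_empty]
    · intro s hs
      let u : (ι → Bool) → ℝ := fun z => match nxt t s z with
        | none => 0
        | some i => xi p z i * P j (fun T => c (insert i T)) (Rd t s z) (xi p z)
      have hun : ∀ z, nxt t s z = none → u z = 0 := fun z h => by simp only [u, h]
      have hus : ∀ z i, nxt t s z = some i →
          u z = xi p z i * P j (fun T => c (insert i T)) (Rd t s z) (xi p z) :=
        fun z i h => by simp only [u, h]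
      have h1 : ∀ z, P (j + 1) c (Rd t (s + 1) z) (xi p z) =
          P (j + 1) c (Rd t s z) (xi p z) + u z := by
        intro z
        cases h : nxt t s z with
        | none => rw [Rd_succ_none h, hun z h, add_zero]
        | some i => rw [Rd_succ_some h, P_insert j c (nxt_some h).2, hus z i h]
      have h2 : ∑ z, mu p z * (P (j + 1) c (Rd t s z) (xi p z) ^ (2 * q + 1) * u z) = 0 := by
        refine sum_flip_eq_zero _ (nxt t s) (fun z h => by rw [hun z h]; simp) fun z i h => ?_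
        obtain ⟨e1, e2⟩ := nxt_flp h
        refine ⟨e2, ?_⟩
        have e3 : ∀ k ∈ Rd t s z, xi p (flp z i) k = xi p z k := fun k hk =>
          xi_flp p z fun e => (nxt_some h).2 (e ▸ hk)
        rw [hus _ i e2, hus z i h, e1, P_congr (j + 1) c e3, P_congr j _ e3]
        have := mu_xi_flp hp z i
        linear_combination (P (j + 1) c (Rd t s z) (xi p z) ^ (2 * q + 1) *
          P j (fun T => c (insert i T)) (Rd t s z) (xi p z)) * this
      have h3 : ∀ z, u z ^ (2 * q + 2) ≤ 4 ^ (q + 1) *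
          ∑ i, P j (fun T => c (insert i T)) (Rd t s z) (xi p z) ^ (2 * q + 2) := by
        intro z
        have hs0 : ∀ i ∈ (univ : Finset ι),
            0 ≤ P j (fun T => c (insert i T)) (Rd t s z) (xi p z) ^ (2 * q + 2) :=
          fun i _ => hev.pow_nonneg _
        cases h : nxt t s z with
        | none =>
          rw [hun z h, zero_pow (by omega)]
          exact mul_nonneg (by positivity) (sum_nonneg hs0)
        | some i =>
          rw [hus z i h, mul_pow]
          refine mul_le_mul ?_ (single_le_sum hs0 (mem_univ i)) (hs0 i (mem_univ i))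
            (by positivity)
          rw [show 2 * q + 2 = 2 * (q + 1) by ring, pow_mul]
          exact pow_le_pow_left₀ (sq_nonneg _) (xi_sq_le hp z i) _
      have h4 : ∑ z, mu p z * u z ^ (2 * q + 2) ≤ 4 ^ (q + 1) * (Fintype.card ι *
          (C * ((D : ℝ) ^ (q + 1) * Fintype.card ι) ^ j)) := by
        calc ∑ z, mu p z * u z ^ (2 * q + 2)
            ≤ ∑ z, mu p z * (4 ^ (q + 1) *
              ∑ i, P j (fun T => c (insert i T)) (Rd t s z) (xi p z) ^ (2 * q + 2)) :=
              sum_le_sum fun z _ => mul_le_mul_of_nonneg_left (h3 z) (mu_nonneg hp z)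
          _ = 4 ^ (q + 1) * ∑ i, ∑ z, mu p z *
              P j (fun T => c (insert i T)) (Rd t s z) (xi p z) ^ (2 * q + 2) := by
              rw [sum_comm, mul_sum]
              refine sum_congr rfl fun z _ => ?_
              rw [← mul_sum]; ring
          _ ≤ 4 ^ (q + 1) * ∑ _i : ι, C * ((D : ℝ) ^ (q + 1) * Fintype.card ι) ^ j := by
              refine mul_le_mul_of_nonneg_left (sum_le_sum fun i _ => ?_) (by positivity)
              exact ih ι t D p hD hp _ (fun T => hc _) s hs.le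
          _ = _ := by simp
      calc ∑ z, mu p z * P (j + 1) c (Rd t (s + 1) z) (xi p z) ^ (2 * q + 2)
          ≤ ∑ z, mu p z * ((1 + 1 / (D : ℝ)) * P (j + 1) c (Rd t s z) (xi p z) ^ (2 * q + 2) +
            (2 * q + 2) * P (j + 1) c (Rd t s z) (xi p z) ^ (2 * q + 1) * u z +
            K q ^ (q + 1) * D ^ q * u z ^ (2 * q + 2)) := by
            refine sum_le_sum fun z _ => mul_le_mul_of_nonneg_left ?_ (mu_nonneg hp z)
            rw [h1 z]
            exact step_bound q D hD' _ _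
        _ = (1 + 1 / (D : ℝ)) * ∑ z, mu p z * P (j + 1) c (Rd t s z) (xi p z) ^ (2 * q + 2) +
            (2 * q + 2) * ∑ z, mu p z * (P (j + 1) c (Rd t s z) (xi p z) ^ (2 * q + 1) * u z) +
            K q ^ (q + 1) * D ^ q * ∑ z, mu p z * u z ^ (2 * q + 2) := by
            rw [mul_sum, mul_sum, mul_sum, ← sum_add_distrib, ← sum_add_distrib]
            exact sum_congr rfl fun z _ => by ring
        _ ≤ _ := by
            rw [h2, mul_zero, add_zero]
            have : 0 ≤ K q ^ (q + 1) * (D : ℝ) ^ q := by positivity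
            have := mul_le_mul_of_nonneg_left h4 this
            linarith

end Lev

open Lev in
theorem levelStmt : LevelStmt := by
  intro j r hr
  obtain ⟨q, rfl⟩ : ∃ q, r = q + 1 := ⟨r - 1, by omega⟩
  obtain ⟨C, -, hC⟩ := moment q j
  refine ⟨C, fun ι α _ _ A T t D p hT hj ht hD hp => ?_⟩
  classical
  have hev : Even (2 * q + 2) := ⟨q + 1, by ring⟩
  set f : (ι → Bool) → ℝ := fun z => ind (t.eval z) with hf
  let c : Finset ι → ℝ := fun S => if 0 ≤ Dv f S p then 1 else -1
  have hc : ∀ S, |c S| ≤ 1 := fun S => by simp only [c]; split_ifs <;> simp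
  have hc' : ∀ S, |Dv f S p| = c S * Dv f S p := fun S => by
    simp only [c]
    split_ifs with h
    · rw [abs_of_nonneg h, one_mul]
    · rw [abs_of_neg (not_le.1 h)]; ring
  have h1 : ∑ a ∈ A, |Dv f (T a) p| ≤ ∑ S ∈ powersetCard j univ, |Dv f S p| := by
    rw [← sum_image (f := fun S => |Dv f S p|) hT]
    refine sum_le_sum_of_subset_of_nonneg ?_ fun _ _ _ => abs_nonneg _
    intro S hS
    obtain ⟨a, ha, rfl⟩ := mem_image.1 hS
    exact mem_powersetCard.2 ⟨subset_univ _, hj a ha⟩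
  have h2 : ∑ S ∈ powersetCard j univ, |Dv f S p| =
      ∑ z, mu p z * (f z * P j c (Rd t D z) (xi p z)) := by
    simp only [hc']
    simp only [hf, Dv_eq hp t, mul_sum]
    rw [sum_comm]
    refine sum_congr rfl fun z _ => ?_
    have e1 : Rd t D z = (t.qs z).toFinset := by
      unfold Rd
      rw [List.take_of_length_le ((t.length_qs_le z).trans ht)]
    have e2 : powersetCard j (t.qs z).toFinset =
        (powersetCard j univ).filter (· ⊆ (t.qs z).toFinset) := by
      ext S; simp [mem_powersetCard, and_comm]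
    rw [e1, P, e2, sum_filter, mul_sum, mul_sum]
    refine sum_congr rfl fun S _ => ?_
    split_ifs <;> ring
  have h3 := Real.pow_arith_mean_le_arith_mean_pow_of_even univ (mu p)
    (fun z => f z * P j c (Rd t D z) (xi p z)) (fun z _ => mu_nonneg hp z) (sum_mu p) hev
  have h4 : ∑ z, mu p z * (f z * P j c (Rd t D z) (xi p z)) ^ (2 * q + 2) ≤
      ∑ z, mu p z * P j c (Rd t D z) (xi p z) ^ (2 * q + 2) := by
    refine sum_le_sum fun z _ => mul_le_mul_of_nonneg_left ?_ (mu_nonneg hp z)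
    simp only [hf, ind]
    split_ifs
    · simp
    · rw [zero_mul, zero_pow (by omega)]; exact hev.pow_nonneg _
  rw [show 2 * (q + 1) = 2 * q + 2 by ring]
  calc (∑ a ∈ A, |Dv f (T a) p|) ^ (2 * q + 2)
      ≤ (∑ S ∈ powersetCard j univ, |Dv f S p|) ^ (2 * q + 2) :=
        pow_le_pow_left₀ (sum_nonneg fun _ _ => abs_nonneg _) h1 _
    _ ≤ _ := by rw [h2]; exact h3.trans (h4.trans (hC ι t D p hD hp c hc D le_rfl))

end Crest.Agent.R350
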