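import Crest.Agent.R350.SteinCube

/-!
Row 350 (S0554): the Stein chain for forrelation (`SteinStmt`).
-/

set_option autoImplicit false
set_option linter.unusedSectionVars false

namespace Crest.Agent.R350

open Finset MeasureTheory Function

namespace Stein

noncomputable def phi (k : ℕ) (x : ℝ) : ℝ := x ^ (2 * k + 1)

noncomputable def psi (k : ℕ) (x : ℝ) : ℝ := (1 - x ^ (2 * (k + 1))) / (2 * k + 2)

theorem psi_deriv (k : ℕ) (t : ℝ) : HasDerivAt (psi k) (-phi k t) t := by
  unfold psi phi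
  refine (((hasDerivAt_pow (2 * (k + 1)) t).const_sub 1).div_const (2 * k + 2 : ℝ)).congr_deriv ?_
  rw [show 2 * (k + 1) - 1 = 2 * k + 1 by omega]
  push_cast; field_simp

theorem psi_one (k : ℕ) : psi k 1 = 0 := by simp [psi]

theorem psi_neg_one (k : ℕ) : psi k (-1) = 0 := by simp [psi, pow_mul]

theorem phi_cont (k : ℕ) : Continuous (phi k) := by unfold phi; fun_prop

theorem psi_cont (k : ℕ) : Continuous (psi k) := by unfold psi; fun_prop

theorem abs_phi_le (k : ℕ) {x : ℝ} (hx : |x| ≤ 1) : |phi k x| ≤ 1 := by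
  unfold phi; rw [abs_pow]; exact pow_le_one₀ (abs_nonneg _) hx

theorem pow_mem (k : ℕ) {x : ℝ} (hx : |x| ≤ 1) : 0 ≤ x ^ (2 * (k + 1)) ∧ x ^ (2 * (k + 1)) ≤ 1 := by
  rw [pow_mul]
  exact ⟨by positivity, pow_le_one₀ (by positivity) ((sq_le_one_iff_abs_le_one x).2 hx)⟩

theorem abs_psi_le (k : ℕ) {x : ℝ} (hx : |x| ≤ 1) : |psi k x| ≤ 1 := by
  obtain ⟨h1, h2⟩ := pow_mem k hx
  unfold psi
  rw [abs_of_nonneg (div_nonneg (by linarith) (by positivity)), div_le_one (by positivity)]
  have : (0 : ℝ) ≤ k := Nat.cast_nonneg k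
  linarith

variable {k : ℕ} {β : Type} [Fintype β] [DecidableEq β]

noncomputable def yy (U : β → β → ℝ) (X : Fin (k + 1) × β → ℝ) (i : Fin k) (b : β) : ℝ :=
  ∑ c, U c b * X (i.castSucc, c)

noncomputable def sig (U : β → β → ℝ) (χ : β → ℝ) (b0 : β) (X : Fin (k + 1) × β → ℝ)
    (l : Fin (k + 1)) (b : β) : ℝ :=
  Fin.cases (motive := fun _ => ℝ) ((1 + X (Fin.last k, b0)) / 2 * χ b)
    (fun i => Real.sin (yy U X i b / (k + 1))) l

noncomputable def xi (X : Fin (k + 1) × β → ℝ) (q : Fin (k + 1) × β) : ℝ :=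
  if q.1 = Fin.last k then 1 else phi k (X q)

noncomputable def pp (U : β → β → ℝ) (χ : β → ℝ) (b0 : β) (X : Fin (k + 1) × β → ℝ)
    (q : Fin (k + 1) × β) : ℝ := 1 / 2 * sig U χ b0 X q.1 q.2 * xi X q

noncomputable def fac (U : β → β → ℝ) (X : Fin (k + 1) × β → ℝ) (i : Fin k) (b c : β) : ℝ :=
  1 / 2 * U b c * psi k (X (i.castSucc, b)) * Real.cos (yy U X i c / (k + 1)) / (k + 1)

noncomputable def W (U : β → β → ℝ) (χ : β → ℝ) (l : Fin (k + 1)) (a : Fin (k + 1) → β)
    (X : Fin (k + 1) × β → ℝ) : ℝ :=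
  1 / 2 * χ (a 0) * ∏ i : Fin k, if i.castSucc < l then fac U X i (a i.castSucc) (a i.succ) else 1

def TT (l : Fin (k + 1)) (a : Fin (k + 1) → β) : Finset (Fin (k + 1) × β) :=
  univ.filter fun q => q.1 ≤ l ∧ q.2 = a q.1

variable (U : β → β → ℝ) (χ : β → ℝ) (b0 : β)

theorem yy_cont (i : Fin k) (b : β) : Continuous fun X => yy U X i b := by unfold yy; fun_prop

theorem sig_cont (l : Fin (k + 1)) (b : β) : Continuous fun X => sig U χ b0 X l b := by
  have := yy_cont (k := k) U
  cases l using Fin.cases with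
  | zero => simp only [sig, Fin.cases_zero]; fun_prop
  | succ i => simp only [sig, Fin.cases_succ]; fun_prop

theorem xi_cont (q : Fin (k + 1) × β) : Continuous fun X => xi X q := by
  have := phi_cont k
  unfold xi; split_ifs <;> fun_prop

theorem pp_cont : Continuous (pp (k := k) U χ b0) := by
  refine continuous_pi fun q => ?_
  have h1 := sig_cont U χ b0 q.1 q.2
  have h2 := xi_cont q
  unfold pp; fun_prop

theorem fac_cont (i : Fin k) (b c : β) : Continuous fun X => fac U X i b c := by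
  have h1 := yy_cont U i c
  have h2 := psi_cont k
  unfold fac; fun_prop

theorem W_cont (l : Fin (k + 1)) (a : Fin (k + 1) → β) : Continuous (W U χ l a) := by
  unfold W
  refine continuous_const.mul (continuous_finsetProd _ fun i _ => ?_)
  split_ifs
  · exact fac_cont U i _ _
  · exact continuous_const

theorem yy_update_ne (X : Fin (k + 1) × β → ℝ) {q : Fin (k + 1) × β} {i : Fin k}
    (h : i.castSucc ≠ q.1) (t : ℝ) (b : β) : yy U (update X q t) i b = yy U X i b := by
  unfold yy
  refine Finset.sum_congr rfl fun c _ => ?_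
  rw [update_of_ne]
  rintro rfl
  exact h rfl

theorem yy_deriv (X : Fin (k + 1) × β → ℝ) (j : Fin k) (c b : β) (t : ℝ) :
    HasDerivAt (fun t => yy U (update X (j.castSucc, c) t) j b) (U c b) t := by
  unfold yy
  have := HasDerivAt.fun_sum (u := univ)
    (A := fun c' t => U c' b * update X (j.castSucc, c) t (j.castSucc, c'))
    (A' := fun c' => if c' = c then U c b else 0) (x := t) fun c' _ => by
      by_cases h : c' = c
      · subst h
        simp only [update_self, if_true]
        exact ((hasDerivAt_id t).const_mul (U c' b)).congr_deriv (mul_one _)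
      · simp only [h, if_false]
        have : ((j.castSucc, c') : Fin (k + 1) × β) ≠ (j.castSucc, c) := by simp [h]
        simp only [update_of_ne this]
        exact hasDerivAt_const _ _
  exact this.congr_deriv (by simp)

theorem xi_update_ne (X : Fin (k + 1) × β → ℝ) {q q' : Fin (k + 1) × β} (h : q' ≠ q) (t : ℝ) :
    xi (update X q t) q' = xi X q' := by
  unfold xi; rw [update_of_ne h]

theorem xi_update_last (X : Fin (k + 1) × β → ℝ) (q' : Fin (k + 1) × β) (t : ℝ) :
    xi (update X (Fin.last k, b0) t) q' = xi X q' := by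
  unfold xi
  split_ifs with h
  · rfl
  · rw [update_of_ne]
    rintro rfl
    exact h rfl

theorem pp_deriv (X : Fin (k + 1) × β → ℝ) (j : Fin k) (c : β) (t : ℝ) (q : Fin (k + 1) × β)
    (hq : q ≠ (j.castSucc, c)) :
    HasDerivAt (fun t => pp U χ b0 (update X (j.castSucc, c) t) q)
      (if q.1 = j.succ then 1 / 2 * (Real.cos (yy U (update X (j.castSucc, c) t) j q.2 / (k + 1)) *
        (U c q.2 / (k + 1))) * xi (update X (j.castSucc, c) t) q else 0) t := by
  unfold pp
  simp only [xi_update_ne X hq]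
  obtain ⟨l, b⟩ := q
  cases l using Fin.cases with
  | zero =>
    have : ((Fin.last k, b0) : Fin (k + 1) × β) ≠ (j.castSucc, c) := by
      simp [(Fin.castSucc_lt_last j).ne']
    simp only [sig, Fin.cases_zero, update_of_ne this, (Fin.succ_ne_zero j).symm, if_false]
    exact hasDerivAt_const _ _
  | succ i =>
    simp only [sig, Fin.cases_succ, Fin.succ_inj]
    by_cases h : i = j
    · subst h
      simp only [if_true]
      exact ((((yy_deriv U X i c b t).div_const (k + 1 : ℝ)).sin).const_mul (1 / 2)).mul_const _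
    · have h' : i.castSucc ≠ ((j.castSucc, c) : Fin (k + 1) × β).1 := by simpa using h
      simp only [h, if_false, yy_update_ne U X h']
      exact hasDerivAt_const _ _

theorem pp_deriv_last (X : Fin (k + 1) × β → ℝ) (t : ℝ) (q : Fin (k + 1) × β) :
    HasDerivAt (fun t => pp U χ b0 (update X (Fin.last k, b0) t) q)
      (if q.1 = 0 then 1 / 2 * (1 / 2 * χ q.2) * xi (update X (Fin.last k, b0) t) q else 0) t := by
  unfold pp
  simp only [xi_update_last]
  obtain ⟨l, b⟩ := q
  cases l using Fin.cases with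
  | zero =>
    simp only [sig, Fin.cases_zero, update_self, if_true]
    exact ((((((hasDerivAt_id t).const_add 1).div_const 2).mul_const (χ b)).const_mul
      (1 / 2)).mul_const _)
  | succ i =>
    have h' : i.castSucc ≠ ((Fin.last k, b0) : Fin (k + 1) × β).1 := (Fin.castSucc_lt_last i).ne
    simp only [sig, Fin.cases_succ, Fin.succ_ne_zero, if_false, yy_update_ne U X h']
    exact hasDerivAt_const _ _

theorem pp_update_neg (X : Fin (k + 1) × β → ℝ) :
    pp U χ b0 (update X (Fin.last k, b0) (-1)) = pp U (fun _ => 0) b0 X := by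
  funext q
  unfold pp
  rw [xi_update_last]
  obtain ⟨l, b⟩ := q
  cases l using Fin.cases with
  | zero => simp [sig]
  | succ i =>
    have h' : i.castSucc ≠ ((Fin.last k, b0) : Fin (k + 1) × β).1 := (Fin.castSucc_lt_last i).ne
    simp only [sig, Fin.cases_succ, yy_update_ne U X h']

theorem abs_pp_le (hχ : ∀ b, |χ b| ≤ 1) {X : Fin (k + 1) × β → ℝ} (hX : ∀ i, |X i| ≤ 1)
    (q : Fin (k + 1) × β) : |pp U χ b0 X q| ≤ 1 / 2 := by
  have h1 : |xi X q| ≤ 1 := by
    unfold xi; split_ifs
    · simp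
    · exact abs_phi_le k (hX q)
  have h2 : |sig U χ b0 X q.1 q.2| ≤ 1 := by
    obtain ⟨l, b⟩ := q
    cases l using Fin.cases with
    | zero =>
      simp only [sig, Fin.cases_zero, abs_mul]
      have := abs_le.1 (hX (Fin.last k, b0))
      refine mul_le_one₀ (abs_le.2 ⟨by linarith, by linarith⟩) (abs_nonneg _) (hχ b)
    | succ i => simp only [sig, Fin.cases_succ]; exact Real.abs_sin_le_one _
  unfold pp
  rw [abs_mul, abs_mul, abs_of_pos (by norm_num : (0 : ℝ) < 1 / 2), mul_assoc]
  have := mul_le_one₀ h2 (abs_nonneg _) h1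
  linarith

theorem W_update (j : Fin k) (a : Fin (k + 1) → β) (X : Fin (k + 1) × β → ℝ) (c : β) (t : ℝ) :
    W U χ j.castSucc a (update X (j.castSucc, c) t) = W U χ j.castSucc a X := by
  unfold W
  congr 1
  refine Finset.prod_congr rfl fun i _ => ?_
  split_ifs with h
  · unfold fac
    rw [yy_update_ne U X (q := (j.castSucc, c)) h.ne, update_of_ne]
    simp [h.ne]
  · rfl

theorem W_succ (j : Fin k) (a : Fin (k + 1) → β) (X : Fin (k + 1) × β → ℝ) (c : β) :
    W U χ j.succ (update a j.succ c) X = W U χ j.castSucc a X * fac U X j (a j.castSucc) c := by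
  unfold W
  rw [update_of_ne (Fin.succ_ne_zero j).symm, mul_assoc (1 / 2 * χ (a 0))]
  congr 1
  rw [← Finset.mul_prod_erase _ _ (mem_univ j), ← Finset.mul_prod_erase univ
    (fun i : Fin k => if i.castSucc < j.castSucc then fac U X i (a i.castSucc) (a i.succ) else 1)
    (mem_univ j)]
  simp only [Fin.castSucc_lt_succ, if_true, lt_irrefl, if_false, one_mul, update_self,
    update_of_ne (Fin.castSucc_lt_succ (i := j)).ne]
  rw [mul_comm]
  congr 1
  refine Finset.prod_congr rfl fun i hi => ?_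
  have hi := Finset.ne_of_mem_erase hi
  have hv : i.val ≠ j.val := fun h => hi (Fin.ext h)
  by_cases h : i.castSucc < j.castSucc
  · have h2 : i.castSucc < j.succ := h.trans Fin.castSucc_lt_succ
    rw [if_pos h, if_pos h2, update_of_ne h2.ne, update_of_ne (by simpa using hi)]
  · have h2 : ¬ i.castSucc < j.succ := by
      simp only [Fin.lt_def, Fin.val_castSucc, Fin.val_succ] at h ⊢; omega
    rw [if_neg h, if_neg h2]

theorem TT_succ (j : Fin k) (a : Fin (k + 1) → β) (c : β) :
    TT j.succ (update a j.succ c) = insert (j.succ, c) (TT j.castSucc a) := by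
  ext ⟨l, b⟩
  simp only [TT, mem_filter, mem_univ, true_and, mem_insert, Prod.mk.injEq]
  by_cases h : l = j.succ
  · subst h
    simp [Fin.castSucc_lt_succ]
  · have hv : l.val ≠ j.val + 1 := fun e => h (Fin.ext e)
    simp only [update_of_ne h, h, false_and, false_or, Fin.le_def, Fin.val_succ, Fin.val_castSucc]
    constructor <;> rintro ⟨h1, h2⟩ <;> exact ⟨by omega, h2⟩

theorem TT_zero (a : Fin (k + 1) → β) (c : β) :
    TT 0 (update a 0 c) = insert (0, c) ∅ := by
  ext ⟨l, b⟩
  simp only [TT, mem_filter, mem_univ, true_and, mem_insert, Prod.mk.injEq, Fin.le_zero_iff,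
    notMem_empty, or_false]
  constructor <;> rintro ⟨rfl, h2⟩ <;> simpa using h2

theorem TT_last (a : Fin (k + 1) → β) : TT (Fin.last k) a = tset a := by
  ext ⟨l, b⟩
  simp [TT, tset, Fin.le_last, eq_comm]

theorem sum_layer (T : Finset (Fin (k + 1) × β)) (l : Fin (k + 1)) (hT : ∀ c, (l, c) ∉ T)
    (g D : Fin (k + 1) × β → ℝ) :
    (∑ q, if q ∈ T then 0 else (if q.1 = l then g q else 0) * D q) = ∑ c, g (l, c) * D (l, c) := by
  rw [Fintype.sum_prod_type, Finset.sum_eq_single l]
  · exact Finset.sum_congr rfl fun c _ => by simp [hT c]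
  · intro l' _ h
    exact Finset.sum_eq_zero fun c _ => by simp [h]
  · simp

/-- The terms of the chain. -/
noncomputable def term (f : (Fin (k + 1) × β → Bool) → ℝ) (l : Fin (k + 1))
    (a : Fin (k + 1) → β) : ℝ :=
  ∫ X, W U χ l a X * xi X (l, a l) * Dv f (TT l a) (pp U χ b0 X) ∂mu _

theorem term_cont (f : (Fin (k + 1) × β → Bool) → ℝ) (l : Fin (k + 1)) (a : Fin (k + 1) → β) :
    Continuous fun X => W U χ l a X * xi X (l, a l) * Dv f (TT l a) (pp U χ b0 X) :=
  ((W_cont U χ l a).mul (xi_cont _)).mul ((Dv_cont f _).comp (pp_cont U χ b0))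

theorem term_step (f : (Fin (k + 1) × β → Bool) → ℝ) (j : Fin k) (a : Fin (k + 1) → β) :
    term U χ b0 f j.castSucc a = ∑ c, term U χ b0 f j.succ (update a j.succ c) := by
  have hD : ∀ T, Continuous fun X => Dv f T (pp U χ b0 X) := fun T =>
    (Dv_cont f T).comp (pp_cont U χ b0)
  have hW := W_cont U χ j.castSucc a
  have hy := yy_cont U j
  have hx := xi_cont (k := k) (β := β)
  have key := stein (G := fun X => W U χ j.castSucc a X * Dv f (TT j.castSucc a) (pp U χ b0 X))
    (G' := fun X => W U χ j.castSucc a X * ∑ c, 1 / 2 * (Real.cos (yy U X j c / (k + 1)) *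
      (U (a j.castSucc) c / (k + 1))) * xi X (j.succ, c) *
        Dv f (insert (j.succ, c) (TT j.castSucc a)) (pp U χ b0 X))
    (by fun_prop) (by fun_prop) (j.castSucc, a j.castSucc) (phi_cont k) (psi_deriv k) (psi_one k)
    (psi_neg_one k) fun X t => by
      simp only [W_update]
      refine HasDerivAt.const_mul _ ?_
      refine (Dv_deriv f (TT j.castSucc a) _ _ t fun q hq =>
        pp_deriv U χ b0 X j (a j.castSucc) t q ?_).congr_deriv ?_
      · rintro rfl
        exact hq (by simp [TT])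
      · exact sum_layer _ j.succ (fun c => by simp [TT, Fin.castSucc_lt_succ]) _
          (fun q => Dv f (insert q (TT j.castSucc a)) _)
  unfold term
  rw [← integral_finsetSum _ fun c _ => integrable_cont (term_cont U χ b0 f _ _)]
  refine Eq.trans ?_ (key.trans ?_)
  · refine integral_congr_ae (Filter.Eventually.of_forall fun X => ?_)
    simp only [xi, (Fin.castSucc_lt_last j).ne, if_false]
    ring
  · refine integral_congr_ae (Filter.Eventually.of_forall fun X => ?_)
    simp only [W_succ, TT_succ, update_self, Finset.mul_sum, fac]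
    exact Finset.sum_congr rfl fun c _ => by ring

theorem term_zero (f : (Fin (k + 1) × β → Bool) → ℝ) (a : Fin (k + 1) → β) :
    ∫ X, Dv f ∅ (pp U χ b0 (update X (Fin.last k, b0) 1)) ∂mu _ -
      ∫ X, Dv f ∅ (pp U (fun _ => 0) b0 X) ∂mu _ = ∑ c, term U χ b0 f 0 (update a 0 c) := by
  have hD : ∀ T, Continuous fun X => Dv f T (pp U χ b0 X) := fun T =>
    (Dv_cont f T).comp (pp_cont U χ b0)
  have hx := xi_cont (k := k) (β := β)
  have key := ftc (H := fun X => Dv f ∅ (pp U χ b0 X))
    (H' := fun X => ∑ c, 1 / 2 * (1 / 2 * χ c) * xi X (0, c) *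
        Dv f (insert (0, c) ∅) (pp U χ b0 X))
    (by fun_prop) (by fun_prop) (Fin.last k, b0) fun X t => by
      refine (Dv_deriv f ∅ _ _ t fun q _ => pp_deriv_last U χ b0 X t q).congr_deriv ?_
      exact sum_layer _ 0 (fun c => by simp) _ (fun q => Dv f (insert q ∅) _)
  simp only [pp_update_neg] at key
  unfold term
  rw [← integral_finsetSum _ fun c _ => integrable_cont (term_cont U χ b0 f _ _)]
  rw [eq_div_iff two_ne_zero, ← integral_mul_const] at key
  rw [← key]
  refine integral_congr_ae (Filter.Eventually.of_forall fun X => ?_)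
  simp only [TT_zero, update_self, Finset.sum_mul, W, Fin.not_lt_zero, if_false,
    Finset.prod_const_one]
  exact Finset.sum_congr rfl fun c _ => by ring

theorem sum_update (l : Fin (k + 1)) (F : (Fin (k + 1) → β) → ℝ) :
    ∑ a, ∑ c, F (update a l c) = Fintype.card β * ∑ a, F a := by
  have h : ∑ q : (Fin (k + 1) → β) × β, F (update q.1 l q.2) =
      ∑ q : (Fin (k + 1) → β) × β, F q.1 := by
    refine Fintype.sum_bijective (fun q => (update q.1 l q.2, q.1 l)) ?_ _ _ fun q => rfl
    refine Function.Involutive.bijective fun q => ?_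
    simp
  rw [Fintype.sum_prod_type, Fintype.sum_prod_type] at h
  rw [h]
  simp [Finset.mul_sum]

theorem chain (f : (Fin (k + 1) × β → Bool) → ℝ) :
    ∫ X, Dv f ∅ (pp U χ b0 (update X (Fin.last k, b0) 1)) ∂mu _ -
      ∫ X, Dv f ∅ (pp U (fun _ => 0) b0 X) ∂mu _ = ∑ a, term U χ b0 f (Fin.last k) a := by
  have hN : (0 : ℝ) < Fintype.card β := by
    have : Nonempty β := ⟨b0⟩
    exact_mod_cast Fintype.card_pos
  have h1 : ∀ l : Fin (k + 1), ∑ a, term U χ b0 f 0 a =
      (Fintype.card β : ℝ) ^ l.val * ∑ a, term U χ b0 f l a := by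
    intro l
    induction l using Fin.induction with
    | zero => simp
    | succ j ih =>
      rw [ih, Finset.sum_congr rfl fun a _ => term_step U χ b0 f j a, sum_update]
      simp only [Fin.val_castSucc, Fin.val_succ]
      ring
  have h2 := Finset.sum_congr (rfl : (univ : Finset (Fin (k + 1) → β)) = univ)
    fun a _ => term_zero U χ b0 f a
  rw [sum_update, h1 (Fin.last k)] at h2
  simp only [sum_const, card_univ, Fintype.card_fun, Fintype.card_fin, nsmul_eq_mul, Nat.cast_pow,
    Fin.val_last] at h2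
  rw [← mul_assoc, ← pow_succ'] at h2
  exact mul_left_cancel₀ (by positivity) h2

theorem abs_U {U : β → β → ℝ} (hU : ∀ b c, U b c ^ 2 = 1 / Fintype.card β) (b c : β) :
    |U b c| = 1 / √(Fintype.card β) := by
  rw [← Real.sqrt_sq_eq_abs, hU, Real.sqrt_div zero_le_one, Real.sqrt_one]

theorem abs_W_le {U : β → β → ℝ} (hU : ∀ b c, U b c ^ 2 = 1 / Fintype.card β) {χ : β → ℝ}
    (hχ : ∀ b, |χ b| ≤ 1) {X : Fin (k + 1) × β → ℝ} (hX : ∀ i, |X i| ≤ 1)
    (a : Fin (k + 1) → β) : |W U χ (Fin.last k) a X| ≤ 1 / √(Fintype.card β) ^ k := by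
  have h1 : ∀ (i : Fin k) (b c : β), |fac U X i b c| ≤ 1 / √(Fintype.card β) := by
    intro i b c
    unfold fac
    rw [← abs_U hU b c, abs_div, abs_mul, abs_mul, abs_mul,
      abs_of_pos (by norm_num : (0 : ℝ) < 1 / 2), abs_of_pos (by positivity : (0 : ℝ) < k + 1),
      div_le_iff₀ (by positivity)]
    have e1 := abs_psi_le k (hX (i.castSucc, b))
    have e2 := Real.abs_cos_le_one (yy U X i c / (k + 1))
    have e3 := mul_le_one₀ e1 (abs_nonneg _) e2
    have e4 := abs_nonneg (U b c)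
    have e5 : (0 : ℝ) ≤ k := Nat.cast_nonneg k
    nlinarith [mul_le_mul_of_nonneg_left e3 e4, mul_nonneg e4 e5]
  unfold W
  simp only [Fin.castSucc_lt_last, if_true]
  rw [abs_mul, abs_mul, abs_of_pos (by norm_num : (0 : ℝ) < 1 / 2), Finset.abs_prod]
  have h2 : ∏ i : Fin k, |fac U X i (a i.castSucc) (a i.succ)| ≤ 1 / √(Fintype.card β) ^ k := by
    refine (Finset.prod_le_prod (fun i _ => abs_nonneg _) fun i _ => h1 i _ _).trans ?_
    simp
  have h3 : 0 ≤ ∏ i : Fin k, |fac U X i (a i.castSucc) (a i.succ)| :=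
    Finset.prod_nonneg fun i _ => abs_nonneg _
  have h4 := hχ (a 0)
  have h5 := abs_nonneg (χ (a 0))
  nlinarith

theorem chain_bound {U : β → β → ℝ} (hU : ∀ b c, U b c ^ 2 = 1 / Fintype.card β) {χ : β → ℝ}
    (hχ : ∀ b, |χ b| ≤ 1) (f : (Fin (k + 1) × β → Bool) → ℝ) (Λ : ℝ)
    (hΛ : ∀ p : Fin (k + 1) × β → ℝ, (∀ i, |p i| ≤ 1 / 2) →
      ∑ a : Fin (k + 1) → β, |Dv f (tset a) p| ≤ Λ) :
    |∑ a, term U χ b0 f (Fin.last k) a| ≤ Λ / √(Fintype.card β) ^ k := by
  unfold term
  rw [← integral_finsetSum _ fun c _ => integrable_cont (term_cont U χ b0 f _ _)]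
  have := norm_integral_le_of_norm_le_const (μ := mu (Fin (k + 1) × β))
    (f := fun X => ∑ a, W U χ (Fin.last k) a X * xi X (Fin.last k, a (Fin.last k)) *
      Dv f (TT (Fin.last k) a) (pp U χ b0 X)) (C := Λ / √(Fintype.card β) ^ k) (by
    filter_upwards [mu_ae] with X hX
    rw [Real.norm_eq_abs]
    refine (Finset.abs_sum_le_sum_abs _ _).trans ?_
    refine le_trans ?_ (div_le_div_of_nonneg_right (hΛ _ (abs_pp_le U χ b0 hχ hX))
      (by positivity))
    rw [Finset.sum_div]
    refine Finset.sum_le_sum fun a _ => ?_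
    simp only [xi, if_true, mul_one, TT_last, abs_mul]
    rw [div_eq_mul_one_div, mul_comm]
    exact mul_le_mul_of_nonneg_left (abs_W_le hU hχ hX a) (abs_nonneg _))
  simpa using this

theorem Dv_amp (T : Finset (Fin (k + 1) × β)) (p : Fin (k + 1) × β → ℝ) :
    Dv (amp U χ) T p = ∑ a : Fin (k + 1) → β,
      (χ (a 0) * (∏ i : Fin k, U (a i.castSucc) (a i.succ)) / Fintype.card β) *
        ∏ i, if i ∈ tset a then (if i ∈ T then 1 else p i) else (if i ∈ T then 0 else 1) := by
  have : amp U χ = fun z => ∑ a : Fin (k + 1) → β,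
      (χ (a 0) * (∏ i : Fin k, U (a i.castSucc) (a i.succ)) / Fintype.card β) *
        ∏ i ∈ tset a, sg (z i) := by
    funext z
    unfold amp tset
    rw [Finset.sum_div]
    refine Finset.sum_congr rfl fun a _ => ?_
    rw [Finset.prod_image fun l _ l' _ h => (Prod.mk.inj h).1]
    ring
  rw [this, Dv_sum]
  simp only [Dv_char]

theorem mem_tset (a : Fin (k + 1) → β) (q : Fin (k + 1) × β) : q ∈ tset a ↔ q.2 = a q.1 := by
  rw [← TT_last]; simp [TT, Fin.le_last]

theorem Dv_amp_zero (X : Fin (k + 1) × β → ℝ) : Dv (amp U χ) ∅ (pp U (fun _ => 0) b0 X) = 0 := by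
  rw [Dv_amp]
  refine Finset.sum_eq_zero fun a _ => ?_
  rw [Finset.prod_eq_zero (mem_univ (0, a 0)), mul_zero]
  simp [mem_tset, pp, sig]

theorem Dv_amp_tset (a : Fin (k + 1) → β) (p : Fin (k + 1) × β → ℝ) :
    Dv (amp U χ) (tset a) p =
      χ (a 0) * (∏ i : Fin k, U (a i.castSucc) (a i.succ)) / Fintype.card β := by
  rw [Dv_amp, Finset.sum_eq_single a]
  · rw [Finset.prod_eq_one (s := (univ : Finset (Fin (k + 1) × β))), mul_one]
    intro i _
    split_ifs <;> rfl
  · intro a' _ h
    obtain ⟨l, hl⟩ := Function.ne_iff.1 h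
    rw [Finset.prod_eq_zero (mem_univ (l, a l)), mul_zero]
    simp [mem_tset, hl.symm]
  · simp

theorem one_sub_prod_le {α : Type} (s : Finset α) (t : α → ℝ) (h : ∀ i, |t i| ≤ 1) :
    1 - ∏ i ∈ s, t i ≤ ∑ i ∈ s, (1 - t i) := by
  classical
  induction s using Finset.induction_on with
  | empty => simp
  | insert i s hi ih =>
    rw [Finset.prod_insert hi, Finset.sum_insert hi]
    have h1 : ∏ i ∈ s, t i ≤ 1 := by
      refine (le_abs_self _).trans ?_
      rw [Finset.abs_prod]
      exact Finset.prod_le_one (fun i _ => abs_nonneg _) fun i _ => h i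
    have h2 := (abs_le.1 (h i)).2
    nlinarith

theorem integral_prod_ge {U : β → β → ℝ} (hU : ∀ b c, U b c ^ 2 = 1 / Fintype.card β)
    (a : Fin (k + 1) → β) :
    1 / 3 ≤ ∫ X, ∏ i : Fin k, (1 - X (i.castSucc, a i.castSucc) ^ (2 * (k + 1))) *
      Real.cos (yy U X i (a i.succ) / (k + 1)) ∂mu (Fin (k + 1) × β) := by
  have hy := yy_cont (k := k) U
  have hN : (0 : ℝ) < Fintype.card β := by
    have : Nonempty β := ⟨a 0⟩
    exact_mod_cast Fintype.card_pos
  have h1 : ∫ X, ((1 : ℝ) - ∑ i : Fin k, (X (i.castSucc, a i.castSucc) ^ (2 * (k + 1)) +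
      yy U X i (a i.succ) ^ 2 / (2 * (k + 1) ^ 2))) ∂mu (Fin (k + 1) × β) =
      (1 : ℝ) - k * (1 / (2 * (k + 1) + 1) + 1 / 3 / (2 * (k + 1) ^ 2)) := by
    rw [integral_sub (integrable_const _) (integrable_cont (by fun_prop)),
      integral_finsetSum _ fun c _ => integrable_cont (by fun_prop)]
    have : ∀ i : Fin k, ∫ X, (X (i.castSucc, a i.castSucc) ^ (2 * (k + 1)) +
        yy U X i (a i.succ) ^ 2 / (2 * (k + 1) ^ 2)) ∂mu (Fin (k + 1) × β) =
        (1 : ℝ) / (2 * (k + 1) + 1) + 1 / 3 / (2 * (k + 1) ^ 2) := by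
      intro i
      rw [integral_add (integrable_cont (by fun_prop)) (integrable_cont (by fun_prop)),
        integral_pow, integral_div]
      unfold yy
      rw [integral_lin_sq (fun c => ((i.castSucc, c) : Fin (k + 1) × β))
        (fun c c' h => (Prod.mk.inj h).2)]
      simp only [hU, sum_const, card_univ, nsmul_eq_mul]
      rw [mul_one_div_cancel hN.ne']
      push_cast; ring
    simp only [this]
    simp [mul_add]
  have h2 : (1 : ℝ) / 3 ≤ 1 - k * (1 / (2 * (k + 1) + 1) + 1 / 3 / (2 * (k + 1) ^ 2)) := by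
    have e5 : (0 : ℝ) ≤ k := Nat.cast_nonneg k
    have e1 : (k : ℝ) * (1 / (2 * (k + 1) + 1)) ≤ 1 / 2 := by
      rw [mul_one_div, div_le_iff₀ (by positivity)]; linarith
    have e2 : (k : ℝ) * (1 / 3 / (2 * (k + 1) ^ 2)) ≤ 1 / 6 := by
      rw [← mul_div_assoc, div_le_iff₀ (by positivity)]; nlinarith
    rw [mul_add]; linarith
  rw [← h1] at h2
  refine h2.trans (integral_mono_ae (integrable_cont (by fun_prop)) (integrable_cont (by fun_prop)) ?_)
  filter_upwards [mu_ae] with X hX
  have h3 := one_sub_prod_le univ (fun i : Fin k =>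
    (1 - X (i.castSucc, a i.castSucc) ^ (2 * (k + 1))) * Real.cos (yy U X i (a i.succ) / (k + 1)))
    fun i => by
      obtain ⟨e1, e2⟩ := pow_mem k (hX (i.castSucc, a i.castSucc))
      rw [abs_mul]
      exact mul_le_one₀ (abs_le.2 ⟨by linarith, by linarith⟩) (abs_nonneg _)
        (Real.abs_cos_le_one _)
  have h4 : ∑ i : Fin k, (1 - (1 - X (i.castSucc, a i.castSucc) ^ (2 * (k + 1))) *
      Real.cos (yy U X i (a i.succ) / (k + 1))) ≤
      ∑ i : Fin k, (X (i.castSucc, a i.castSucc) ^ (2 * (k + 1)) +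
        yy U X i (a i.succ) ^ 2 / (2 * (k + 1) ^ 2)) := by
    refine Finset.sum_le_sum fun i _ => ?_
    obtain ⟨e1, e2⟩ := pow_mem k (hX (i.castSucc, a i.castSucc))
    have e3 := Real.one_sub_sq_div_two_le_cos (x := yy U X i (a i.succ) / (k + 1))
    have e4 := Real.cos_le_one (yy U X i (a i.succ) / (k + 1))
    have e5 : yy U X i (a i.succ) ^ 2 / (2 * (k + 1) ^ 2) =
        (yy U X i (a i.succ) / (k + 1)) ^ 2 / 2 := by
      field_simp
    rw [e5]
    nlinarith [mul_nonneg e1 (sub_nonneg.2 e4)]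
  linarith

theorem term_amp {U : β → β → ℝ} (hU : ∀ b c, U b c ^ 2 = 1 / Fintype.card β) {χ : β → ℝ}
    (hχ : ∀ b, χ b ^ 2 = 1) (a : Fin (k + 1) → β) :
    1 / 6 * (1 / (2 * (2 * k + 2) * (k + 1))) ^ k / (Fintype.card β : ℝ) ^ (k + 1) ≤
      term U χ b0 (amp U χ) (Fin.last k) a := by
  have hN : (0 : ℝ) < Fintype.card β := by
    have : Nonempty β := ⟨a 0⟩
    exact_mod_cast Fintype.card_pos
  have h1 : ∀ X : Fin (k + 1) × β → ℝ, W U χ (Fin.last k) a X *
      xi X (Fin.last k, a (Fin.last k)) * Dv (amp U χ) (TT (Fin.last k) a) (pp U χ b0 X) =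
      (1 / 2 * (1 / (2 * (2 * k + 2) * (k + 1))) ^ k / (Fintype.card β : ℝ) ^ (k + 1)) *
        ∏ i : Fin k, (1 - X (i.castSucc, a i.castSucc) ^ (2 * (k + 1))) *
          Real.cos (yy U X i (a i.succ) / (k + 1)) := by
    intro X
    have e : (∏ i : Fin k, fac U X i (a i.castSucc) (a i.succ)) *
        ∏ i : Fin k, U (a i.castSucc) (a i.succ) =
        ∏ i : Fin k, ((1 / (2 * (2 * k + 2) * (k + 1)) / (Fintype.card β : ℝ)) *
          ((1 - X (i.castSucc, a i.castSucc) ^ (2 * (k + 1))) *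
            Real.cos (yy U X i (a i.succ) / (k + 1)))) := by
      rw [← Finset.prod_mul_distrib]
      refine Finset.prod_congr rfl fun i _ => ?_
      unfold fac psi
      have := hU (a i.castSucc) (a i.succ)
      rw [div_eq_mul_one_div (1 / (2 * (2 * k + 2) * (k + 1)) : ℝ), ← this]
      field_simp
    rw [Finset.prod_mul_distrib, Finset.prod_const, card_univ, Fintype.card_fin, div_pow] at e
    simp only [W, xi, if_true, Fin.castSucc_lt_last, TT_last, Dv_amp_tset]
    have e2 := hχ (a 0)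
    calc _ = 1 / 2 * χ (a 0) ^ 2 / Fintype.card β *
          ((∏ i : Fin k, fac U X i (a i.castSucc) (a i.succ)) *
            ∏ i : Fin k, U (a i.castSucc) (a i.succ)) := by ring
      _ = _ := by rw [e, e2, pow_succ]; field_simp
  unfold term
  simp only [h1]
  rw [integral_const_mul]
  have h2 := integral_prod_ge hU a
  have h3 : (0 : ℝ) ≤ 1 / 2 * (1 / (2 * (2 * k + 2) * (k + 1))) ^ k /
    (Fintype.card β : ℝ) ^ (k + 1) := by positivity
  refine le_trans (le_of_eq ?_) (mul_le_mul_of_nonneg_left h2 h3)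
  ring

/-- The distribution of the bits with random sign means `P X`. -/
noncomputable def dist {ι : Type} [Fintype ι] (P : (ι → ℝ) → ι → ℝ) (z : ι → Bool) : ℝ :=
  ∫ X, ∏ i, (1 + sg (z i) * P X i) / 2 ∂mu ι

theorem dist_sum {ι : Type} [Fintype ι] [DecidableEq ι] {P : (ι → ℝ) → ι → ℝ} (hP : Continuous P)
    (f : (ι → Bool) → ℝ) : ∑ z, dist P z * f z = ∫ X, Dv f ∅ (P X) ∂mu ι := by
  unfold dist Dv
  simp only [notMem_empty, if_false]
  rw [integral_finsetSum _ fun c _ => integrable_cont (by fun_prop)]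
  refine Finset.sum_congr rfl fun z _ => ?_
  rw [integral_const_mul, mul_comm]

theorem dist_isDist {ι : Type} [Fintype ι] [DecidableEq ι] {P : (ι → ℝ) → ι → ℝ}
    (hP : Continuous P) (hb : ∀ X, (∀ i, |X i| ≤ 1) → ∀ i, |P X i| ≤ 1 / 2) : IsDist (dist P) := by
  refine ⟨fun z => ?_, ?_⟩
  · refine integral_nonneg_of_ae ?_
    filter_upwards [mu_ae] with X hX
    refine Finset.prod_nonneg fun i _ => ?_
    have := abs_le.1 (hb X hX i)
    unfold sg
    split_ifs <;> linarith
  · have h1 := dist_sum hP fun z => ∏ i ∈ (∅ : Finset ι), sg (z i)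
    simp only [Dv_char] at h1
    simpa using h1

end Stein

open Stein in
theorem steinStmt : SteinStmt := by
  intro k _
  refine ⟨1 / 6 * (1 / (2 * (2 * k + 2) * (k + 1))) ^ k, by positivity, fun β _ _ hβ U hU => ?_⟩
  obtain ⟨b0⟩ := hβ
  have hN : (0 : ℝ) < Fintype.card β := by
    have : Nonempty β := ⟨b0⟩
    exact_mod_cast Fintype.card_pos
  refine ⟨Stein.dist (pp U (fun _ => 0) b0), dist_isDist (pp_cont U _ b0)
    fun X hX => abs_pp_le U _ b0 (fun _ => by simp) hX, fun χ hχ => ?_⟩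
  have hχ' : ∀ b, |χ b| ≤ 1 := fun b => (sq_le_one_iff_abs_le_one _).1 (hχ b).le
  have hc : Continuous fun X => pp U χ b0 (update X (Fin.last k, b0) 1) :=
    (pp_cont U χ b0).comp (cont_update _ _)
  refine ⟨Stein.dist fun X => pp U χ b0 (update X (Fin.last k, b0) 1),
    dist_isDist hc fun X hX => abs_pp_le U _ b0 hχ' fun i => ?_, ?_, fun f Λ hΛ => ?_⟩
  · by_cases h : i = (Fin.last k, b0)
    · subst h; simp
    · rw [update_of_ne h]; exact hX i
  · have h1 := chain U χ b0 (amp (k := k) U χ)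
    simp only [Dv_amp_zero, integral_zero, sub_zero] at h1
    rw [dist_sum hc, h1]
    refine le_trans (le_of_eq ?_) (Finset.sum_le_sum fun a _ => term_amp b0 hU hχ a)
    simp only [sum_const, card_univ, Fintype.card_fun, Fintype.card_fin, nsmul_eq_mul,
      Nat.cast_pow]
    field_simp
  · rw [dist_sum hc, dist_sum (pp_cont U _ b0), chain]
    exact chain_bound b0 hU hχ' f Λ hΛ

end Crest.Agent.R350
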