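import Crest.Agent.R350.Fun
import Crest.Agent.R350.Level
import Crest.Agent.R350.Stein
import Crest.Agent.R350.Hybrid

/-!
Row 350: the randomized lower bound for the function.
-/

set_option autoImplicit false

namespace Crest.Agent.R350

open Finset

theorem card_tset {k : ℕ} {β : Type} [DecidableEq β] (a : Fin (k + 1) → β) :
    (tset a).card = k + 1 := by
  rw [tset, Finset.card_image_of_injective _ fun l l' h => (Prod.ext_iff.1 h).1]
  simp

theorem tset_inj {k : ℕ} {β : Type} [DecidableEq β] :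
    Function.Injective (tset : (Fin (k + 1) → β) → _) := by
  intro a a' h
  funext l
  have : (l, a l) ∈ tset a' := h ▸ Finset.mem_image.2 ⟨l, Finset.mem_univ _, rfl⟩
  obtain ⟨l', -, h'⟩ := Finset.mem_image.1 this
  obtain ⟨rfl, h2⟩ := Prod.ext_iff.1 h'
  exact h2.symm

theorem lower (k : ℕ) (hk : 1 ≤ k) : ∃ η : ℝ, 0 < η ∧ ∃ C : ℝ, ∀ (n ℓ : ℕ)
    (dZ : (Fin ℓ → Bool) → ℤ), (∀ t : ℤ, |t| ≤ (2 ^ n) ^ (k + 1) → ∃ w, dZ w = t) →
    ∀ D d : ℕ, 1 ≤ D → D ≤ 2 ^ n →
    C * ((D : ℝ) ^ (k + 1) * ((k + 1) * 2 ^ n)) ^ (k + 1) ≤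
      (η / 16 * √(2 ^ n) ^ k) ^ (2 * (k + 1)) →
    (2 : ℝ) ^ n * (1 - 1 / D) ^ (2 ^ n) ≤ η / 8 → RC (FF (n := n) (k := k) (η / 2) dZ) d →
    η / 48 * 2 ^ n * D ≤ d := by
  classical
  obtain ⟨η, hη, hS⟩ := steinStmt k hk
  obtain ⟨C, hC⟩ := levelStmt (k + 1) (k + 1) (by omega)
  refine ⟨η, hη, C, fun n ℓ dZ hd D d hD hDn h1 h2 hR => ?_⟩
  obtain ⟨D0, hD0, hS⟩ := hS (Bv n) (Had n) had_sq
  choose D1 hD1 hA hL using fun A : Bv n => hS (fun b => (chi A b : ℝ)) fun b => by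
    rw [sq]; exact_mod_cast chi_mul_self A b
  have hN : (Fintype.card (Bv n) : ℝ) = 2 ^ n := by simp
  have hN' : Fintype.card (Bv n) = 2 ^ n := by simp
  have hD' : (1 : ℝ) ≤ D := by exact_mod_cast hD
  have hDn' : (D : ℝ) ≤ 2 ^ n := by exact_mod_cast hDn
  have key := hybridStmt (Bv n) (Bv n) (Fin (k + 1) × Bv n) (Sl n k ℓ) (FF (η / 2) dZ)
    (fun A y => decide (η / 2 ≤ ampA A y)) D0 D1 (η / 2) (η / 16) (1 / D) D d (FF_zero _ _)
    (fun c A z y g1 g2 g3 => FF_plant _ hd c A z y g1 g2 (by simpa using g3)) hD0 hD1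
    (fun A => ?_) (fun A t ht => ?_) (by positivity) (by rw [div_le_one (by positivity)]; exact hD')
    hR
  · rw [hN, hN'] at key
    have h3 : (1 : ℝ) / 2 ^ n + 1 / D + 1 / (D + 1) ≤ 3 / D := by
      have := one_div_le_one_div_of_le (by positivity) hDn'
      have := one_div_le_one_div_of_le (by positivity) (show (D : ℝ) ≤ D + 1 by linarith)
      have : (3 : ℝ) / D = 3 * (1 / D) := by ring
      linarith
    have h4 := mul_le_mul_of_nonneg_left h3 (show (0 : ℝ) ≤ d / 2 ^ n by positivity)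
    have h5 : η / 16 ≤ (d : ℝ) / 2 ^ n * (3 / D) := by linarith
    rw [div_mul_div_comm, le_div_iff₀ (by positivity)] at h5
    linarith
  · have h3 : ∑ y, D1 A y * ampA A y ≤
        ∑ y, D1 A y * (η / 2 + ind (decide (η / 2 ≤ ampA A y))) := by
      refine Finset.sum_le_sum fun y _ => mul_le_mul_of_nonneg_left ?_ ((hD1 A).1 y)
      by_cases h : η / 2 ≤ ampA A y
      · simp only [h, decide_true, ind, if_true]; linarith [ampA_le_one A y]
      · simp only [h, decide_false, ind]; simp; linarith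
    simp only [mul_add, Finset.sum_add_distrib, ← Finset.sum_mul, (hD1 A).2] at h3
    linarith [hA A]
  · have h3 := hL A (fun y => ind (t.eval y)) (η / 16 * √(2 ^ n) ^ k) fun p hp => by
      have := hC _ _ univ tset t D p tset_inj.injOn (fun a _ => card_tset a) ht hD hp
      refine le_of_pow_le_pow_left₀ (n := 2 * (k + 1)) (by omega) (by positivity)
        (this.trans (le_trans (le_of_eq ?_) h1))
      simp
    rw [hN, mul_div_cancel_right₀ _ (by positivity), abs_le] at h3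
    linarith [h3.2]

end Crest.Agent.R350
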