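import Crest.Agent.R350.Lower
import Crest.Agent.R350.Conv

/-!
Row 350: choice of the parameters.
-/

set_option autoImplicit false

namespace Crest.Agent.R350

open Finset Crest.MathPhysics.Query

theorem cost_le {L s n ℓ t u : ℕ} (hL : 1 ≤ L) (hs : 28 * L ^ 2 ≤ s) (hn : n ≤ 5 * L * s)
    (hℓ : ℓ = n * L + 2) (hu : u ≤ s) :
    t * ((L + 1) * s ^ L * u * (6 * s ^ 2 * (L + (2 * n + 2))) +
      (42 * t + 1) * (2 * s ^ (L + 1) * (3 * ℓ + n + 1))) ≤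
      t * (6 * (L + 1) + (84 * t + 2)) * s ^ (L + 5) := by
  have h1 : 1 ≤ s := by nlinarith
  have h2 : L ≤ L * s := Nat.le_mul_of_pos_right _ h1
  have h3 : L * s ≤ L * L * s := by nlinarith
  have h4 : n * L ≤ 5 * (L * L * s) := by nlinarith
  have h5 : 28 * (L * L * s) ≤ s ^ 2 := by nlinarith
  have h6 : L + (2 * n + 2) ≤ s ^ 2 := by nlinarith
  have h7 : 3 * ℓ + n + 1 ≤ s ^ 4 := by
    have : s ^ 2 ≤ s ^ 4 := Nat.pow_le_pow_right h1 (by norm_num)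
    nlinarith
  calc _ ≤ t * ((L + 1) * s ^ L * s * (6 * s ^ 2 * s ^ 2) +
      (42 * t + 1) * (2 * s ^ (L + 1) * s ^ 4)) := by gcongr
    _ = _ := by ring

theorem tail_le {D s r N : ℕ} (hD : 1 ≤ D) (hs : 1 ≤ s) (h : D * s * r ≤ N) :
    (1 - 1 / (D : ℝ)) ^ N ≤ 1 / (s : ℝ) ^ r := by
  have hD' : (1 : ℝ) ≤ D := by exact_mod_cast hD
  have hs' : (1 : ℝ) ≤ s := by exact_mod_cast hs
  have h0 : (0 : ℝ) ≤ 1 / D := by positivity
  have h1 : (1 : ℝ) / D ≤ 1 := by rw [div_le_one (by positivity)]; exact hD'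
  have h2 := pow_mul_le_one h0 h1 (D * s)
  have h3 : ((D * s : ℕ) : ℝ) * (1 / D) = s := by push_cast; field_simp
  rw [h3] at h2
  have h4 : 0 ≤ (1 - 1 / (D : ℝ)) ^ (D * s) := pow_nonneg (by linarith) _
  have h5 : (1 - 1 / (D : ℝ)) ^ (D * s) ≤ 1 / s := by
    rw [le_div_iff₀ (by positivity)]; nlinarith
  calc _ ≤ (1 - 1 / (D : ℝ)) ^ (D * s * r) := pow_le_pow_of_le_one (by linarith) (by linarith) h
    _ = ((1 - 1 / (D : ℝ)) ^ (D * s)) ^ r := pow_mul _ _ _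
    _ ≤ (1 / s) ^ r := pow_le_pow_left₀ h4 h5 r
    _ = _ := by rw [one_div_pow]

theorem core (a : ℕ) : ∃ c : ℝ, 0 < c ∧ ∃ C j0 : ℕ, ∀ j, j0 ≤ j →
    ∃ (n : ℕ) (F : (Fin n → Bool) → Bool),
      (∃ q, q ≤ C * (3 ^ j) ^ (a + 8) ∧ QuantumComputes F q) ∧
      ∀ r, RandomizedComputes F r → c * ((3 : ℝ) ^ j) ^ (4 * a + 6) ≤ r := by
  obtain ⟨η, hη, C0, H⟩ := lower (a + 2) (by omega)
  obtain ⟨t, ht⟩ := exists_nat_ge (4 * (27 / 2) ^ (a + 3) / (η / 2) ^ 2)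
  obtain ⟨K1, hK1⟩ := exists_nat_ge (16 / η)
  obtain ⟨K2, hK2⟩ := exists_nat_ge (C0 * (a + 3) ^ (a + 3) / (η / 16) ^ (2 * (a + 3)))
  refine ⟨η / 48, by positivity, t * (6 * (a + 3 + 1) + (84 * t + 2)),
    28 * (a + 3) ^ 2 + K1 + K2 + 1, fun j hj => ?_⟩
  obtain ⟨b, rfl⟩ : ∃ b, j = b + 1 := ⟨j - 1, by omega⟩
  have hjs : b + 1 ≤ 3 ^ (b + 1) := (Nat.lt_pow_self (by norm_num)).le
  have e9 : ∀ e, 9 ^ ((b + 1) * e) = (3 ^ (b + 1)) ^ (2 * e) := fun e => by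
    rw [← pow_mul, show 9 = 3 ^ 2 by norm_num, ← pow_mul]; congr 1; ring
  have e3 : ∀ e, 3 ^ ((b + 1) * e) = (3 ^ (b + 1)) ^ e := fun e => pow_mul _ _ _
  have e1 : 9 ^ (b + 1) = (3 ^ (b + 1)) ^ 2 := by simpa using e9 1
  have hb : 3 ^ b ≤ 3 ^ (b + 1) := Nat.pow_le_pow_right (by norm_num) (by omega)
  have hr : ((3 : ℝ) ^ (b + 1)) = ((3 ^ (b + 1) : ℕ) : ℝ) := by push_cast; rfl
  have hr9 : (9 : ℝ) ^ b = ((3 ^ (b + 1) : ℕ) : ℝ) ^ 2 / 9 := by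
    rw [← Nat.cast_pow, ← e1]; push_cast; rw [pow_succ]; ring
  obtain ⟨n, hlo, hhi, hn⟩ : ∃ n, 9 ^ ((b + 1) * (a + 3)) ≤ 2 ^ n ∧
      2 ^ n ≤ 2 * 9 ^ ((b + 1) * (a + 3)) ∧ n ≤ 4 * ((b + 1) * (a + 3)) + 1 := by
    have h1 := Nat.pow_log_le_self 2 (x := 9 ^ ((b + 1) * (a + 3))) (by positivity)
    refine ⟨Nat.log 2 (9 ^ ((b + 1) * (a + 3))) + 1,
      (Nat.lt_pow_succ_log_self (by norm_num) _).le, by rw [pow_succ]; omega, ?_⟩
    have h2 : 9 ^ ((b + 1) * (a + 3)) ≤ 2 ^ (4 * ((b + 1) * (a + 3))) := by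
      rw [pow_mul 2]; exact Nat.pow_le_pow_left (by norm_num) _
    have := (Nat.pow_le_pow_iff_right (by norm_num : 1 < 2)).1 (h1.trans h2)
    omega
  obtain ⟨dZ, hd⟩ := exists_dec ((2 ^ n) ^ (a + 3)) (n * (a + 3) + 2) (by
    have : 1 ≤ (2 ^ n) ^ (a + 3) := Nat.one_le_pow _ _ (by positivity)
    rw [pow_add 2, pow_mul]; omega)
  have hJ : Fintype.card (JJ n (a + 2)) = 1 + 2 ^ n * (a + 5 + (a + 3) * n) := by
    simp [JJ]; ring
  have Q := quantum_ub (n := n) (k := a + 2) (θ := η / 2) (by positivity) dZ (b := b)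
    (L := a + 3) (S := (b + 1) * (a + 3 + 1)) (t := t) hlo
  rw [hJ, e9, e3, e3, e1, hr9] at Q
  rw [e9] at hlo hhi
  rw [hr]
  generalize 3 ^ (b + 1) = s at *
  have hs1 : 1 ≤ s := by omega
  have hn' : n ≤ 5 * (a + 3) * s := by nlinarith
  have hs0 : (1 : ℝ) ≤ s := by exact_mod_cast hs1
  have hlo' : (s : ℝ) ^ (2 * (a + 3)) ≤ 2 ^ n := by exact_mod_cast hlo
  have hhi' : (2 : ℝ) ^ n ≤ 2 * s ^ (2 * (a + 3)) := by exact_mod_cast hhi
  obtain ⟨P, hP, hF⟩ := Q (by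
      have h1 : 1 ≤ 2 ^ n := Nat.one_le_two_pow
      have h2 : a + 6 + (a + 3) * n ≤ 7 * (a + 3) ^ 2 * s := by nlinarith
      have h3 : 14 * (a + 3) ^ 2 * s ≤ s ^ 2 := by nlinarith
      calc _ ≤ 2 ^ n * (a + 6 + (a + 3) * n) := by nlinarith
        _ ≤ 2 * s ^ (2 * (a + 3)) * (7 * (a + 3) ^ 2 * s) := by gcongr
        _ = s ^ (2 * (a + 3)) * (14 * (a + 3) ^ 2 * s) := by ring
        _ ≤ s ^ (2 * (a + 3)) * s ^ 2 := by gcongr
        _ = _ := by ring) (by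
      rw [div_le_iff₀ (by positivity)] at ht
      have h1 : (2 : ℝ) = 4 * (27 / 2) ^ (a + 3) * ((2 / 3 * (s ^ 2 / 9)) ^ (a + 3) *
          (1 / (2 * s ^ (2 * (a + 3))))) := by
        rw [show (2 : ℝ) / 3 * (s ^ 2 / 9) = s ^ 2 / (27 / 2) by ring, div_pow ((s : ℝ) ^ 2), ← pow_mul]
        field_simp
        norm_num
      calc (2 : ℝ) = _ := h1
        _ ≤ t * (η / 2) ^ 2 * ((2 / 3 * (s ^ 2 / 9)) ^ (a + 3) * (1 / 2 ^ n)) := by gcongr
        _ = _ := by ring)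
  let e := Fintype.equivFin (IX n (a + 2) (n * (a + 3) + 2))
  refine ⟨_, fun x => FF (η / 2) dZ (x ∘ e), ⟨_, cost_le (u := 3 ^ b) (by omega) (by omega) hn' rfl
    hb, quantumComputes_of_QD (e (pG default default)) (hP.reindex e) fun x => hF _⟩,
    fun r hr => ?_⟩
  have := H n _ dZ (by exact_mod_cast hd) (s ^ (2 * a)) r (Nat.one_le_pow _ _ hs1)
    ((Nat.pow_le_pow_right hs1 (by omega)).trans hlo) ?_ ?_ (rc_of_randomized e hr)
  · refine le_trans ?_ this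
    push_cast
    calc _ = η / 48 * s ^ (2 * (a + 3)) * s ^ (2 * a) := by ring
      _ ≤ _ := by gcongr
  · rcases le_total C0 0 with h0 | h0
    · exact le_trans (mul_nonpos_of_nonpos_of_nonneg h0 (by positivity)) (by positivity)
    push_cast
    have hN : (1 : ℝ) ≤ 2 ^ n := one_le_pow₀ (by norm_num)
    rw [mul_pow (η / 16), pow_mul (√_ ^ _), ← pow_mul √_, mul_comm (a + 2), pow_mul √_,
      Real.sq_sqrt (by positivity)]
    rw [div_le_iff₀ (by positivity)] at hK2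
    have h1 : (K2 : ℝ) ≤ (2 ^ n) ^ (a + 3) := by
      have h2 : (K2 : ℝ) ≤ s := by exact_mod_cast (by omega : K2 ≤ s)
      exact h2.trans ((le_self_pow₀ hs0 (by omega)).trans
        (hlo'.trans (le_self_pow₀ hN (by omega))))
    have h2 : ((s : ℝ) ^ (2 * a)) ^ (a + 2 + 1) ≤ (2 ^ n) ^ a := by
      rw [show ((s : ℝ) ^ (2 * a)) ^ (a + 2 + 1) = (s ^ (2 * (a + 3))) ^ a by ring]
      gcongr
    generalize (2 : ℝ) ^ n = N at *
    calc _ ≤ C0 * (N ^ a * ((a + 2 + 1) * N)) ^ (a + 2 + 1) := by gcongr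
      _ = C0 * (a + 3) ^ (a + 3) * N ^ ((a + 1) * (a + 3)) := by
        rw [show N ^ a * ((a + 2 + 1) * N) = (a + 3) * N ^ (a + 1) by ring, mul_pow, ← pow_mul,
          mul_assoc]
      _ ≤ N ^ (a + 3) * (η / 16) ^ (2 * (a + 3)) * N ^ ((a + 1) * (a + 3)) := by
        exact mul_le_mul_of_nonneg_right (hK2.trans (by gcongr)) (by positivity)
      _ = _ := by ring
  · have h1 := tail_le (D := s ^ (2 * a)) (s := s ^ 2) (r := a + 4) (N := 2 ^ n)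
      (Nat.one_le_pow _ _ hs1) (Nat.one_le_pow _ _ hs1) (le_trans (by
        have : a + 4 ≤ s ^ 4 := le_trans (by nlinarith) (le_self_pow₀ hs1 (by norm_num))
        calc _ ≤ s ^ (2 * a) * s ^ 2 * s ^ 4 := by gcongr
          _ = _ := by ring) hlo)
    have h2 : (K1 : ℝ) ≤ s := by exact_mod_cast (by omega : K1 ≤ s)
    have h3 : 16 / η ≤ s ^ 2 := hK1.trans (h2.trans (le_self_pow₀ hs0 (by norm_num)))
    rw [div_le_iff₀ hη] at h3
    calc _ ≤ 2 * (s : ℝ) ^ (2 * (a + 3)) * (1 / ((s ^ 2 : ℕ) : ℝ) ^ (a + 4)) := by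
          refine mul_le_mul hhi' h1 (pow_nonneg ?_ _) (by positivity)
          have : (1 : ℝ) ≤ ((s ^ (2 * a) : ℕ) : ℝ) := by exact_mod_cast Nat.one_le_pow _ _ hs1
          rw [sub_nonneg, div_le_one (by positivity)]; exact this
      _ = 2 / s ^ 2 := by push_cast; field_simp; ring
      _ ≤ _ := by rw [div_le_div_iff₀ (by positivity) (by norm_num)]; linarith

end Crest.Agent.R350
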