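import Crest.Agent.R350.QU

/-!
Row 350: output laws of quantum query algorithms and their closure properties.
-/

set_option autoImplicit false
set_option linter.unusedSectionVars false

namespace Crest.Agent.R350

open Finset Matrix Kronecker

variable {ι : Type}

/-- The output law `P x` is produced with `q` queries. -/
def QD {O : Type} [DecidableEq O] (q : ℕ) (P : (ι → Bool) → O → ℝ) : Prop :=
  ∃ (W : Type) (_ : Fintype W) (_ : DecidableEq W) (ψ : W → ℝ)
    (V : (ι → Bool) → Matrix W W ℝ) (out : W → O), ψ ⬝ᵥ ψ = 1 ∧ QU q V ∧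
      ∀ x o, P x o = ∑ w, if out w = o then (V x *ᵥ ψ) w ^ 2 else 0

theorem sum_out {W O : Type} [Fintype W] [Fintype O] [DecidableEq O] (out : W → O) (a : W → ℝ)
    (g : O → ℝ) : ∑ o, (∑ w, if out w = o then a w else 0) * g o = ∑ w, a w * g (out w) := by
  simp only [Finset.sum_mul, ite_mul, zero_mul]
  rw [Finset.sum_comm]
  simp

theorem sum_sq_eq_dot {W : Type} [Fintype W] (v : W → ℝ) : ∑ w, v w ^ 2 = v ⬝ᵥ v := by
  simp [dotProduct, sq]

section
variable {O O' : Type} [Fintype O] [DecidableEq O] [Fintype O'] [DecidableEq O']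
  {q q' : ℕ} {P : (ι → Bool) → O → ℝ}

theorem QD.isDist (h : QD q P) (x : ι → Bool) : IsDist (P x) := by
  obtain ⟨W, _, _, ψ, V, out, hψ, hV, e⟩ := h
  refine ⟨fun o => ?_, ?_⟩
  · rw [e]; exact Finset.sum_nonneg fun w _ => by positivity
  · have := sum_out out (fun w => (V x *ᵥ ψ) w ^ 2) fun _ => 1
    simp only [mul_one] at this
    simp only [e, this, sum_sq_eq_dot, (hV.orth x).dot, hψ]

theorem QD.congr {P' : (ι → Bool) → O → ℝ} (h : QD q P) (e : ∀ x o, P' x o = P x o) : QD q P' := by
  rw [show P' = P from funext fun x => funext (e x)]; exact h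

theorem QD.mono (h : QD q P) (hq : q ≤ q') : QD q' P := by
  obtain ⟨W, _, _, ψ, V, out, hψ, hV, e⟩ := h
  exact ⟨W, _, _, ψ, V, out, hψ, hV.mono hq, e⟩

theorem QD.const {p : O → ℝ} (hp : IsDist p) : QD 0 fun _ : ι → Bool => p := by
  refine ⟨O, inferInstance, inferInstance, fun o => √(p o), fun _ => 1, id, ?_,
    QU.const Orth.one, fun x o => ?_⟩
  · simp only [dotProduct, Real.mul_self_sqrt (hp.1 _), hp.2]
  · simp [Real.sq_sqrt (hp.1 _)]

theorem QD.map (h : QD q P) (f : O → O') :
    QD q fun x o' => ∑ o, P x o * if f o = o' then 1 else 0 := by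
  obtain ⟨W, _, _, ψ, V, out, hψ, hV, e⟩ := h
  refine ⟨W, inferInstance, inferInstance, ψ, V, fun w => f (out w), hψ, hV, fun x o' => ?_⟩
  simp only [e]
  rw [sum_out]
  simp

theorem QD.bind (h : QD q P) {R : O → (ι → Bool) → O' → ℝ} (hR : ∀ o, QD q' (R o)) :
    QD (q + q') fun x o' => ∑ o, P x o * R o x o' := by
  obtain ⟨W, _, _, ψ, V, out, hψ, hV, e⟩ := h
  choose Z iF iD φ Y outZ hφ hY eZ using hR
  classical
  have hW : Nonempty W := by
    by_contra hc
    rw [not_nonempty_iff] at hc
    simp [dotProduct] at hψ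
  let emb : O → (Σ o, Z o) → ℝ := fun o s => if s.1 = o then φ s.1 s.2 else 0
  have hemb : ∀ o, emb o ⬝ᵥ emb o = 1 := by
    intro o
    rw [dotProduct, Fintype.sum_sigma, Finset.sum_eq_single o _ (by simp)]
    · simpa [emb, dotProduct] using hφ o
    · intro b _ hb; simp [emb, hb]
  obtain ⟨w0⟩ := hW
  choose Pr hPr ePr using fun o => exists_orth_map (hemb (out w0)) (hemb o)
  refine ⟨(Σ o, Z o) × W, inferInstance, inferInstance, fun s => emb (out w0) s.1 * ψ s.2,
    fun x => blockDiagonal (fun w => blockDiagonal' (fun o => Y o x) * Pr (out w)) *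
      ((1 : Matrix (Σ o, Z o) (Σ o, Z o) ℝ) ⊗ₖ V x),
    fun s => outZ s.1.1 s.1.2, ?_, ?_, fun x o' => ?_⟩
  · rw [dotProduct, Fintype.sum_prod_type]
    have : ∀ s w, emb (out w0) s * ψ w * (emb (out w0) s * ψ w) =
        emb (out w0) s * emb (out w0) s * (ψ w * ψ w) := fun s w => by ring
    simp only [this, ← Finset.mul_sum, ← Finset.sum_mul]
    rw [← dotProduct, ← dotProduct, hemb, hψ, one_mul]
  · exact (QU.block fun w => (QU.sigma hY).mul_const (hPr (out w))).mul hV.one_kron
  · simp only [e]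
    rw [sum_out, Fintype.sum_prod_type, Finset.sum_comm]
    refine Finset.sum_congr rfl fun w _ => ?_
    have key : ∀ (o : O) (z : Z o), ((blockDiagonal (fun w => blockDiagonal' (fun o => Y o x) *
        Pr (out w)) * ((1 : Matrix (Σ o, Z o) (Σ o, Z o) ℝ) ⊗ₖ V x)) *ᵥ
        fun s => emb (out w0) s.1 * ψ s.2) (⟨o, z⟩, w) =
        (V x *ᵥ ψ) w * if o = out w then (Y o x *ᵥ φ o) z else 0 := by
      intro o z
      rw [← mulVec_mulVec, one_kron_mulVec, block_mulVec, ← mulVec_mulVec]
      have : (fun s => emb (out w0) s * (V x *ᵥ ψ) w) = (V x *ᵥ ψ) w • emb (out w0) := by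
        funext s; simp [mul_comm]
      simp only
      rw [this, mulVec_smul, ePr, mulVec_smul, Pi.smul_apply, sigma_mulVec, smul_eq_mul]
      congr 1
      split_ifs with ho
      · simp [emb, ho]
      · simp [emb, ho, mulVec, dotProduct]
    rw [Fintype.sum_sigma, Finset.sum_eq_single (out w) _ (by simp)]
    · simp only [key, if_true, eZ, Finset.mul_sum]
      refine Finset.sum_congr rfl fun z _ => ?_
      split_ifs <;> ring
    · intro o _ ho
      simp only [key, ho, if_false]
      simp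

/-- One round of amplitude amplification. -/
theorem QD.amp (h : QD q P) (good : O → Bool) :
    QD (3 * q) fun x o => P x o * if good o then (3 - 4 * ∑ o, P x o * ind (good o)) ^ 2
      else (1 - 4 * ∑ o, P x o * ind (good o)) ^ 2 := by
  obtain ⟨W, _, _, ψ, V, out, hψ, hV, e⟩ := h
  have hS : Orth (diagonal fun w => sg (good (out w))) := Orth.diagonal fun w => sg_mul_self _
  have hR : Orth (-refl ψ) := by
    have := refl_orth ψ
    unfold Orth at *
    simpa using this
  refine ⟨W, inferInstance, inferInstance, ψ,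
    fun x => V x * (-refl ψ) * ((V x)ᵀ * ((diagonal fun w => sg (good (out w))) * V x)), out, hψ,
    ?_, fun x o => ?_⟩
  · have := (hV.mul_const hR).mul (hV.transpose.mul (hV.const_mul hS))
    rwa [show q + q + q = 3 * q by ring] at this
  · have hl : ∑ o, P x o * ind (good o) = ∑ w, (V x *ᵥ ψ) w ^ 2 * ind (good (out w)) := by
      simp only [e]; rw [sum_out]
    have h1 : ∑ w, (V x *ᵥ ψ) w ^ 2 = 1 := by rw [sum_sq_eq_dot, (hV.orth x).dot, hψ]
    set s := V x *ᵥ ψ with hs
    set t := (diagonal fun w => sg (good (out w))) *ᵥ s with ht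
    have hst : ψ ⬝ᵥ ((V x)ᵀ *ᵥ t) = 1 - 2 * ∑ o, P x o * ind (good o) := by
      rw [dotProduct_mulVec, vecMul_transpose, ← hs, hl, ← h1, Finset.mul_sum,
        ← Finset.sum_sub_distrib, dotProduct]
      refine Finset.sum_congr rfl fun w _ => ?_
      rw [ht, mulVec_diagonal]
      cases good (out w) <;> simp [sg, ind] <;> ring
    have key : (V x * (-refl ψ) * ((V x)ᵀ * ((diagonal fun w => sg (good (out w))) * V x))) *ᵥ ψ =
        (2 * (1 - 2 * ∑ o, P x o * ind (good o))) • s - t := by
      rw [← mulVec_mulVec, ← mulVec_mulVec, ← mulVec_mulVec, ← mulVec_mulVec, ← hs, ← ht,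
        neg_mulVec, refl_mulVec, hψ, hst, neg_sub, mulVec_sub, mulVec_smul, ← hs, mulVec_mulVec,
        (hV.orth x).mul_transpose, one_mulVec, div_one]
    simp only
    rw [key, e, Finset.sum_mul]
    refine Finset.sum_congr rfl fun w _ => ?_
    split_ifs with h1 h2 h2
    · simp only [Pi.sub_apply, Pi.smul_apply, ht, mulVec_diagonal, h1, h2, sg, smul_eq_mul, if_true]
      ring
    · simp only [Pi.sub_apply, Pi.smul_apply, ht, mulVec_diagonal, h1, h2, sg, smul_eq_mul]
      simp only [Bool.false_eq_true, if_false]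
      ring
    · simp
    · simp

end

theorem QD.bit (i : ι) : QD 1 fun (x : ι → Bool) (o : Bool) => if x i = o then (1 : ℝ) else 0 := by
  have h2 : (√2)⁻¹ * (√2)⁻¹ = (1 / 2 : ℝ) := by
    rw [← mul_inv, Real.mul_self_sqrt (by norm_num)]; norm_num
  let H : Matrix Bool Bool ℝ := fun a b => (√2)⁻¹ * sg (a && b)
  have hH : Orth H := by
    ext a b
    cases a <;> cases b <;> simp [H, mul_apply, sg, h2] <;> norm_num
  refine ⟨Bool, inferInstance, inferInstance, fun _ => (√2)⁻¹,
    fun x => H * ph (fun b => if b then some i else none) x, id, ?_,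
    (QU.phase _).const_mul hH, fun x o => ?_⟩
  · simp [dotProduct, h2]
  · rw [← mulVec_mulVec]
    cases hx : x i <;> cases o <;>
      simp [H, mulVec, dotProduct, ph, diagonal, sgO, sg, hx, h2] <;> norm_num

end Crest.Agent.R350
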