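import Crest.Agent.R350.Defs

/-!
Row 350: a small calculus of real quantum query algorithms.
`QU q V`: the family of orthogonal matrices `V x` is run with `q` phase queries.
`QD q P`: the family of output laws `P x` is produced with `q` queries.
-/

set_option autoImplicit false
set_option linter.unusedSectionVars false

namespace Crest.Agent.R350

open Finset Matrix Kronecker

variable {ι : Type}

/-- The phase attached to an optional query position. -/
def sgO (x : ι → Bool) : Option ι → ℝ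
  | none => 1
  | some i => sg (x i)

theorem sg_mul_self (b : Bool) : sg b * sg b = 1 := by cases b <;> simp [sg]

theorem sgO_mul_self (x : ι → Bool) (o : Option ι) : sgO x o * sgO x o = 1 := by
  cases o with
  | none => simp [sgO]
  | some i => exact sg_mul_self _

section QU
variable {W : Type} [Fintype W] [DecidableEq W]

def Orth (U : Matrix W W ℝ) : Prop := Uᵀ * U = 1

theorem Orth.mul_transpose {U : Matrix W W ℝ} (h : Orth U) : U * Uᵀ = 1 :=
  mul_eq_one_comm.1 h

theorem Orth.one : Orth (1 : Matrix W W ℝ) := by simp [Orth]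

theorem Orth.mul {U V : Matrix W W ℝ} (hU : Orth U) (hV : Orth V) : Orth (U * V) := by
  unfold Orth at *
  rw [transpose_mul, Matrix.mul_assoc, ← Matrix.mul_assoc Uᵀ, hU, Matrix.one_mul, hV]

theorem Orth.transpose {U : Matrix W W ℝ} (h : Orth U) : Orth Uᵀ := by
  unfold Orth; rw [transpose_transpose]; exact h.mul_transpose

theorem Orth.diagonal {d : W → ℝ} (h : ∀ w, d w * d w = 1) : Orth (diagonal d) := by
  unfold Orth
  rw [diagonal_transpose, diagonal_mul_diagonal]
  simp [h]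

theorem Orth.dot {U : Matrix W W ℝ} (h : Orth U) (u v : W → ℝ) :
    (U *ᵥ u) ⬝ᵥ (U *ᵥ v) = u ⬝ᵥ v := by
  rw [dotProduct_mulVec, vecMul_mulVec, h, vecMul_one]

/-- A phase query. -/
def ph (α : W → Option ι) (x : ι → Bool) : Matrix W W ℝ := diagonal fun w => sgO x (α w)

theorem ph_orth (α : W → Option ι) (x : ι → Bool) : Orth (ph α x) :=
  Orth.diagonal fun _ => sgO_mul_self _ _

/-- `V` is run with `q` phase queries. -/
def QU : ℕ → ((ι → Bool) → Matrix W W ℝ) → Prop
  | 0, V => ∃ U, Orth U ∧ ∀ x, V x = U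
  | q + 1, V => ∃ U α V', Orth U ∧ QU q V' ∧ ∀ x, V x = U * ph α x * V' x

theorem QU.const {U : Matrix W W ℝ} (h : Orth U) : QU 0 fun _ : ι → Bool => U :=
  ⟨U, h, fun _ => rfl⟩

theorem QU.congr {q : ℕ} {V V' : (ι → Bool) → Matrix W W ℝ} (h : QU q V) (e : ∀ x, V' x = V x) :
    QU q V' := by
  rw [show V' = V from funext e]; exact h

theorem QU.orth {q : ℕ} {V : (ι → Bool) → Matrix W W ℝ} (h : QU q V) (x : ι → Bool) :
    Orth (V x) := by
  induction q generalizing V with
  | zero => obtain ⟨U, hU, e⟩ := h; rw [e]; exact hU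
  | succ q ih =>
    obtain ⟨U, α, V', hU, hV, e⟩ := h
    rw [e]; exact (hU.mul (ph_orth α x)).mul (ih hV)

theorem QU.const_mul {q : ℕ} {V : (ι → Bool) → Matrix W W ℝ} (h : QU q V) {U : Matrix W W ℝ}
    (hU : Orth U) : QU q fun x => U * V x := by
  cases q with
  | zero => obtain ⟨U', hU', e⟩ := h; exact ⟨U * U', hU.mul hU', fun x => by simp only [e]⟩
  | succ q =>
    obtain ⟨U', α, V', hU', hV, e⟩ := h
    exact ⟨U * U', α, V', hU.mul hU', hV, fun x => by simp only [e, Matrix.mul_assoc]⟩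

theorem QU.mul {q q' : ℕ} {V V' : (ι → Bool) → Matrix W W ℝ} (h : QU q V) (h' : QU q' V') :
    QU (q' + q) fun x => V x * V' x := by
  induction q generalizing V with
  | zero => obtain ⟨U, hU, e⟩ := h; exact (h'.const_mul hU).congr fun x => by rw [e]
  | succ q ih =>
    obtain ⟨U, α, V'', hU, hV, e⟩ := h
    exact ⟨U, α, _, hU, ih hV, fun x => by simp only [e, Matrix.mul_assoc]⟩

theorem QU.phase (α : W → Option ι) : QU 1 (ph α) :=
  ⟨1, α, fun _ => 1, Orth.one, QU.const Orth.one, fun x => by simp⟩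

theorem QU.mul_const {q : ℕ} {V : (ι → Bool) → Matrix W W ℝ} (h : QU q V) {U : Matrix W W ℝ}
    (hU : Orth U) : QU q fun x => V x * U := by
  simpa using h.mul (QU.const hU)

theorem QU.transpose {q : ℕ} {V : (ι → Bool) → Matrix W W ℝ} (h : QU q V) :
    QU q fun x => (V x)ᵀ := by
  induction q generalizing V with
  | zero => obtain ⟨U, hU, e⟩ := h; exact ⟨Uᵀ, hU.transpose, fun x => by simp only [e]⟩
  | succ q ih =>
    obtain ⟨U, α, V', hU, hV, e⟩ := h
    have := (ih hV).mul ((QU.phase α).mul_const hU.transpose)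
    rw [add_comm] at this
    refine this.congr fun x => ?_
    simp only [e, transpose_mul, ph, diagonal_transpose]

theorem QU.succ {q : ℕ} {V : (ι → Bool) → Matrix W W ℝ} (h : QU q V) : QU (q + 1) V :=
  ⟨1, fun _ => none, V, Orth.one, h, fun x => by simp [ph, sgO]⟩

theorem QU.mono {q q' : ℕ} {V : (ι → Bool) → Matrix W W ℝ} (h : QU q V) (hq : q ≤ q') :
    QU q' V := by
  induction hq with
  | refl => exact h
  | step _ ih => exact ih.succ

theorem QU.sigma {C : Type} [Fintype C] [DecidableEq C] {Z : C → Type} [∀ c, Fintype (Z c)]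
    [∀ c, DecidableEq (Z c)] {q : ℕ} {V : ∀ c, (ι → Bool) → Matrix (Z c) (Z c) ℝ}
    (h : ∀ c, QU q (V c)) : QU q fun x => blockDiagonal' fun c => V c x := by
  have ho : ∀ U : ∀ c, Matrix (Z c) (Z c) ℝ, (∀ c, Orth (U c)) → Orth (blockDiagonal' U) := by
    intro U hU
    unfold Orth at *
    rw [blockDiagonal'_transpose, ← blockDiagonal'_mul, ← blockDiagonal'_one]
    congr 1; funext c; exact hU c
  induction q generalizing V with
  | zero =>
    choose U hU e using h
    exact ⟨blockDiagonal' U, ho U hU, fun x => by simp only [e]⟩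
  | succ q ih =>
    choose U α V' hU hV e using h
    refine ⟨blockDiagonal' U, fun s => α s.1 s.2, _, ho U hU, ih hV, fun x => ?_⟩
    simp only [e, blockDiagonal'_mul, ph, blockDiagonal'_diagonal]

theorem Orth.block {C : Type} [Fintype C] [DecidableEq C] {U : C → Matrix W W ℝ}
    (hU : ∀ c, Orth (U c)) : Orth (blockDiagonal U) := by
  unfold Orth at *
  rw [blockDiagonal_transpose, ← blockDiagonal_mul, ← blockDiagonal_one]
  congr 1; funext c; exact hU c

theorem QU.block {C : Type} [Fintype C] [DecidableEq C] {q : ℕ}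
    {V : C → (ι → Bool) → Matrix W W ℝ} (h : ∀ c, QU q (V c)) :
    QU q fun x => blockDiagonal fun c => V c x := by
  induction q generalizing V with
  | zero =>
    choose U hU e using h
    exact ⟨blockDiagonal U, Orth.block hU, fun x => by simp only [e]⟩
  | succ q ih =>
    choose U α V' hU hV e using h
    refine ⟨blockDiagonal U, fun s => α s.2 s.1, _, Orth.block hU, ih hV, fun x => ?_⟩
    simp only [e, blockDiagonal_mul, ph, blockDiagonal_diagonal]

theorem Orth.one_kron {C : Type} [Fintype C] [DecidableEq C] {U : Matrix W W ℝ} (hU : Orth U) :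
    Orth ((1 : Matrix C C ℝ) ⊗ₖ U) := by
  unfold Orth at *
  rw [← kroneckerMap_transpose, ← mul_kronecker_mul, hU]
  simp

theorem one_kron_ph {C : Type} [Fintype C] [DecidableEq C] (α : W → Option ι) (x : ι → Bool) :
    (1 : Matrix C C ℝ) ⊗ₖ ph α x = ph (fun s : C × W => α s.2) x := by
  rw [ph, ph, ← diagonal_one, diagonal_kronecker_diagonal]
  simp

theorem QU.one_kron {C : Type} [Fintype C] [DecidableEq C] {q : ℕ}
    {V : (ι → Bool) → Matrix W W ℝ} (h : QU q V) :
    QU q fun x => (1 : Matrix C C ℝ) ⊗ₖ V x := by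
  induction q generalizing V with
  | zero => obtain ⟨U, hU, e⟩ := h; exact ⟨_, hU.one_kron, fun x => by simp only [e]⟩
  | succ q ih =>
    obtain ⟨U, α, V', hU, hV, e⟩ := h
    refine ⟨_, fun s => α s.2, _, hU.one_kron, ih hV, fun x => ?_⟩
    simp only
    rw [e, ← one_kron_ph, ← mul_kronecker_mul, ← mul_kronecker_mul]
    simp

theorem one_kron_mulVec {C : Type} [Fintype C] [DecidableEq C] (U : Matrix W W ℝ) (φ : C → ℝ)
    (ψ : W → ℝ) : ((1 : Matrix C C ℝ) ⊗ₖ U) *ᵥ (fun s => φ s.1 * ψ s.2) =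
      fun s => φ s.1 * (U *ᵥ ψ) s.2 := by
  funext ⟨c, w⟩
  simp only [mulVec, dotProduct, Fintype.sum_prod_type, kroneckerMap_apply, one_apply, ite_mul,
    one_mul, zero_mul]
  rw [Finset.sum_eq_single c (by intro b _ hb; simp [Ne.symm hb]) (by simp), Finset.mul_sum]
  simp only [if_true]
  exact Finset.sum_congr rfl fun _ _ => by ring

theorem block_mulVec {C : Type} [Fintype C] [DecidableEq C] (U : C → Matrix W W ℝ)
    (v : W × C → ℝ) (w : W) (c : C) :
    (blockDiagonal U *ᵥ v) (w, c) = (U c *ᵥ fun w' => v (w', c)) w := by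
  simp only [mulVec, dotProduct, Fintype.sum_prod_type, blockDiagonal_apply, ite_mul, zero_mul]
  refine Finset.sum_congr rfl fun w' _ => ?_
  rw [Finset.sum_eq_single c (by intro b _ hb; simp [Ne.symm hb]) (by simp)]
  simp

theorem sigma_mulVec {C : Type} [Fintype C] [DecidableEq C] {Z : C → Type} [∀ c, Fintype (Z c)]
    [∀ c, DecidableEq (Z c)] (U : ∀ c, Matrix (Z c) (Z c) ℝ) (v : (Σ c, Z c) → ℝ) (c : C)
    (w : Z c) : (blockDiagonal' U *ᵥ v) ⟨c, w⟩ = (U c *ᵥ fun w' => v ⟨c, w'⟩) w := by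
  simp only [mulVec, dotProduct]
  rw [Fintype.sum_sigma, Finset.sum_eq_single c _ (by simp)]
  · simp [blockDiagonal'_apply_eq]
  · intro b _ hb
    simp [blockDiagonal'_apply_ne _ _ _ (Ne.symm hb)]

/-- The reflection in the hyperplane orthogonal to `v`. -/
noncomputable def refl (v : W → ℝ) : Matrix W W ℝ := 1 - (2 / (v ⬝ᵥ v)) • vecMulVec v v

theorem refl_mulVec (v u : W → ℝ) : refl v *ᵥ u = u - (2 / (v ⬝ᵥ v) * (v ⬝ᵥ u)) • v := by
  rw [refl, sub_mulVec, one_mulVec, smul_mulVec, vecMulVec_mulVec]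
  simp [smul_smul]

theorem refl_orth (v : W → ℝ) : Orth (refl v) := by
  have ht : (refl v)ᵀ = refl v := by simp [refl, transpose_sub]
  unfold Orth
  rw [ht]
  refine Matrix.ext_of_mulVec_single fun i => ?_
  rw [← mulVec_mulVec, refl_mulVec, refl_mulVec, one_mulVec, dotProduct_sub, dotProduct_smul,
    sub_sub, ← add_smul]
  by_cases h : v ⬝ᵥ v = 0
  · simp [h]
  · have : 2 / (v ⬝ᵥ v) * (v ⬝ᵥ Pi.single i 1) + 2 / (v ⬝ᵥ v) *
        (v ⬝ᵥ Pi.single i 1 - (2 / (v ⬝ᵥ v) * (v ⬝ᵥ Pi.single i 1)) • (v ⬝ᵥ v)) = 0 := by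
      rw [smul_eq_mul]; field_simp; ring
    rw [this]; simp

theorem exists_orth_map {φ ψ : W → ℝ} (hφ : φ ⬝ᵥ φ = 1) (hψ : ψ ⬝ᵥ ψ = 1) :
    ∃ P : Matrix W W ℝ, Orth P ∧ P *ᵥ φ = ψ := by
  refine ⟨refl (φ - ψ), refl_orth _, ?_⟩
  rw [refl_mulVec]
  by_cases h : (φ - ψ) ⬝ᵥ (φ - ψ) = 0
  · have := dotProduct_self_eq_zero.1 h
    rw [this]; simpa using sub_eq_zero.1 this
  · have e : (φ - ψ) ⬝ᵥ (φ - ψ) = 2 * ((φ - ψ) ⬝ᵥ φ) := by
      simp only [sub_dotProduct, dotProduct_sub, hφ, hψ, dotProduct_comm ψ φ]; ring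
    have : 2 / ((φ - ψ) ⬝ᵥ (φ - ψ)) * ((φ - ψ) ⬝ᵥ φ) = 1 := by
      rw [div_mul_eq_mul_div, ← e, div_self h]
    rw [this]; simp

end QU

end Crest.Agent.R350
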