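import Crest.Agent.R350.Defs

/-!
Row 350 (S0554): the uniform measure on the cube `[-1,1]^ι`, the fundamental theorem of calculus in
one coordinate, and derivatives of `Dv`.
-/

set_option autoImplicit false

namespace Crest.Agent.R350

open Finset MeasureTheory Function

namespace Stein

/-- The uniform probability measure on `[-1,1]`. -/
noncomputable def nu : Measure ℝ := (2⁻¹ : ENNReal) • volume.restrict (Set.Icc (-1 : ℝ) 1)

instance : IsProbabilityMeasure nu := ⟨by
  simp only [nu, Measure.smul_apply, Measure.restrict_apply MeasurableSet.univ, Set.univ_inter,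
    Real.volume_Icc, smul_eq_mul]
  rw [show (1 : ℝ) - -1 = 2 by norm_num, ENNReal.ofReal_ofNat]
  exact ENNReal.inv_mul_cancel (by norm_num) (by norm_num)⟩

theorem nu_ae : ∀ᵐ t ∂nu, |t| ≤ 1 := by
  unfold nu
  apply Measure.ae_smul_measure
  filter_upwards [ae_restrict_mem measurableSet_Icc] with t ht
  exact abs_le.2 ht

theorem integral_nu (g : ℝ → ℝ) : ∫ t, g t ∂nu = (∫ t in (-1 : ℝ)..1, g t) / 2 := by
  unfold nu
  rw [integral_smul_measure, intervalIntegral.integral_of_le (by norm_num),
    integral_Icc_eq_integral_Ioc]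
  simp [div_eq_inv_mul]

variable {ι : Type} [Fintype ι] [DecidableEq ι]

/-- The uniform probability measure on the cube. -/
noncomputable def mu (ι : Type) [Fintype ι] : Measure (ι → ℝ) := Measure.pi fun _ => nu

instance : IsProbabilityMeasure (mu ι) := by unfold mu; infer_instance

omit [DecidableEq ι] in
theorem mu_ae : ∀ᵐ X ∂mu ι, ∀ i, |X i| ≤ 1 :=
  ae_all_iff.2 fun i => (Measure.tendsto_eval_ae_ae (μ := fun _ : ι => nu) (i := i)).eventually nu_ae

omit [DecidableEq ι] in
theorem integrable_cont {F : (ι → ℝ) → ℝ} (hF : Continuous F) : Integrable F (mu ι) := by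
  obtain ⟨C, hC⟩ := (isCompact_Icc (a := fun _ : ι => (-1 : ℝ)) (b := fun _ => 1)).exists_bound_of_continuousOn hF.continuousOn
  refine Integrable.of_bound hF.aestronglyMeasurable C ?_
  filter_upwards [mu_ae] with X hX
  exact hC X ⟨fun i => (abs_le.1 (hX i)).1, fun i => (abs_le.1 (hX i)).2⟩

theorem mp_update (j : ι) :
    MeasurePreserving (fun q : (ι → ℝ) × ℝ => update q.1 j q.2) ((mu ι).prod nu) (mu ι) := by
  have hm : Measurable (fun q : (ι → ℝ) × ℝ => update q.1 j q.2) := measurable_update'
  refine ⟨hm, ?_⟩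
  symm
  unfold mu
  refine Measure.pi_eq fun s hs => ?_
  rw [Measure.map_apply hm (MeasurableSet.univ_pi hs)]
  have : (fun q : (ι → ℝ) × ℝ => update q.1 j q.2) ⁻¹' Set.univ.pi s =
      (Set.univ.pi (update s j Set.univ)) ×ˢ s j := by
    ext ⟨X, t⟩
    simp only [Set.mem_preimage, Set.mem_pi, Set.mem_univ, true_imp_iff, Set.mem_prod]
    constructor
    · intro h
      refine ⟨fun i => ?_, by simpa using h j⟩
      by_cases hi : i = j
      · subst hi; simp
      · simpa [update_of_ne hi] using h i
    · rintro ⟨h1, h2⟩ i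
      by_cases hi : i = j
      · subst hi; simpa using h2
      · simpa [update_of_ne hi] using h1 i
  rw [this, Measure.prod_prod, Measure.pi_pi, ← Finset.mul_prod_erase _ _ (mem_univ j),
    ← Finset.mul_prod_erase _ (fun i => nu (s i)) (mem_univ j)]
  simp only [update_self, measure_univ, one_mul]
  rw [mul_comm]
  congr 1
  exact Finset.prod_congr rfl fun i hi => by rw [update_of_ne (Finset.ne_of_mem_erase hi)]

omit [Fintype ι] in
theorem cont_update (j : ι) (t : ℝ) : Continuous fun X : ι → ℝ => update X j t :=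
  continuous_id.update j continuous_const

theorem integral_update {F : (ι → ℝ) → ℝ} (hF : Continuous F) (j : ι) :
    ∫ X, F X ∂mu ι = ∫ X, (∫ t, F (update X j t) ∂nu) ∂mu ι := by
  have h1 : Integrable (F ∘ fun q : (ι → ℝ) × ℝ => update q.1 j q.2) ((mu ι).prod nu) :=
    (mp_update j).integrable_comp_of_integrable (integrable_cont hF)
  have h2 := integral_prod _ h1
  simp only [Function.comp] at h2
  rw [← h2]
  have h3 := integral_map (μ := (mu ι).prod nu) (mp_update j).measurable.aemeasurable
    (f := F) hF.aestronglyMeasurable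
  rw [(mp_update j).map_eq] at h3
  exact h3

/-- The fundamental theorem of calculus in coordinate `j`. -/
theorem ftc {H H' : (ι → ℝ) → ℝ} (hH : Continuous H) (hH' : Continuous H') (j : ι)
    (hd : ∀ X t, HasDerivAt (fun t => H (update X j t)) (H' (update X j t)) t) :
    ∫ X, H' X ∂mu ι = (∫ X, H (update X j 1) ∂mu ι - ∫ X, H (update X j (-1)) ∂mu ι) / 2 := by
  have i1 : Integrable (fun X => H (update X j 1)) (mu ι) :=
    integrable_cont (hH.comp (cont_update j 1))
  have i2 : Integrable (fun X => H (update X j (-1))) (mu ι) :=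
    integrable_cont (hH.comp (cont_update j (-1)))
  rw [integral_update hH' j, ← integral_sub i1 i2, ← integral_div]
  refine integral_congr_ae (Filter.Eventually.of_forall fun X => ?_)
  simp only
  rw [integral_nu, intervalIntegral.integral_eq_sub_of_hasDerivAt (fun t _ => hd X t)]
  exact (hH'.comp (continuous_const.update j continuous_id)).intervalIntegrable _ _

/-- Stein's identity. -/
theorem stein {G G' : (ι → ℝ) → ℝ} (hG : Continuous G) (hG' : Continuous G') (j : ι)
    {φ ψ : ℝ → ℝ} (hφ : Continuous φ) (hψ : ∀ t, HasDerivAt ψ (-φ t) t) (h1 : ψ 1 = 0)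
    (h2 : ψ (-1) = 0)
    (hd : ∀ X t, HasDerivAt (fun t => G (update X j t)) (G' (update X j t)) t) :
    ∫ X, φ (X j) * G X ∂mu ι = ∫ X, ψ (X j) * G' X ∂mu ι := by
  have hψc : Continuous ψ := continuous_iff_continuousAt.2 fun t => (hψ t).continuousAt
  have c1 : Continuous fun X : ι → ℝ => φ (X j) * G X := (hφ.comp (continuous_apply j)).mul hG
  have c2 : Continuous fun X : ι → ℝ => ψ (X j) * G' X := (hψc.comp (continuous_apply j)).mul hG'
  have := ftc (H := fun X => ψ (X j) * G X) (H' := fun X => ψ (X j) * G' X - φ (X j) * G X)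
    ((hψc.comp (continuous_apply j)).mul hG) (c2.sub c1) j fun X t => by
      simp only [update_self]
      exact ((hψ t).mul (hd X t)).congr_deriv (by ring)
  rw [integral_sub (integrable_cont c2) (integrable_cont c1)] at this
  simp only [update_self, h1, h2, zero_mul, integral_zero, sub_zero, zero_div] at this
  linarith

theorem integral_pow (j : ι) (n : ℕ) : ∫ X, X j ^ (2 * n) ∂mu ι = 1 / (2 * n + 1) := by
  have := ftc (H := fun X => X j ^ (2 * n + 1) / (2 * n + 1)) (H' := fun X => X j ^ (2 * n))
    (by fun_prop) (by fun_prop) j fun X t => by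
      simp only [update_self]
      refine ((hasDerivAt_pow (2 * n + 1) t).div_const (2 * n + 1 : ℝ)).congr_deriv ?_
      simp only [Nat.add_sub_cancel]; push_cast; field_simp
  rw [this]
  simp only [update_self, pow_succ, pow_mul, neg_one_sq, one_pow, integral_const, probReal_univ,
    smul_eq_mul]
  field_simp; ring

theorem integral_mul_ne {i j : ι} (h : i ≠ j) : ∫ X, X j * X i ∂mu ι = 0 := by
  have := ftc (H := fun X => X j ^ 2 / 2 * X i) (H' := fun X => X j * X i)
    (by fun_prop) (by fun_prop) j fun X t => by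
      simp only [update_self, update_of_ne h]
      refine (((hasDerivAt_pow 2 t).div_const (2 : ℝ)).mul_const (X i)).congr_deriv ?_
      simp
  rw [this]
  simp [update_of_ne h]

/-- The second moment of a linear form. -/
theorem integral_lin_sq {β : Type} [Fintype β] [DecidableEq β] (e : β → ι) (he : Injective e)
    (u : β → ℝ) : ∫ X, (∑ c, u c * X (e c)) ^ 2 ∂mu ι = (∑ c, u c ^ 2) / 3 := by
  have : ∀ X : ι → ℝ, (∑ c, u c * X (e c)) ^ 2 = ∑ c, ∑ c', u c * u c' * (X (e c) * X (e c')) := by
    intro X
    rw [sq, Finset.sum_mul_sum]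
    exact Finset.sum_congr rfl fun c _ => Finset.sum_congr rfl fun c' _ => by ring
  simp only [this]
  rw [integral_finsetSum _ fun c _ => integrable_cont (by fun_prop), Finset.sum_div]
  refine Finset.sum_congr rfl fun c _ => ?_
  rw [integral_finsetSum _ fun c _ => integrable_cont (by fun_prop),
    Finset.sum_eq_single c]
  · rw [integral_const_mul]
    have := integral_pow (e c) 1
    simp only [mul_one, sq] at this
    rw [this]; norm_num; ring
  · intro c' _ hc
    rw [integral_const_mul, integral_mul_ne (fun h => hc (he h)), mul_zero]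
  · simp

/-! ### `Dv` -/

theorem Dv_cont (f : (ι → Bool) → ℝ) (T : Finset ι) : Continuous (Dv f T) := by
  unfold Dv
  refine continuous_finsetSum _ fun z _ => continuous_const.mul
    (continuous_finsetProd _ fun i _ => ?_)
  split_ifs <;> fun_prop

theorem Dv_deriv (f : (ι → Bool) → ℝ) (T : Finset ι) (P : ℝ → ι → ℝ) (P' : ι → ℝ) (t : ℝ)
    (h : ∀ i, i ∉ T → HasDerivAt (fun s => P s i) (P' i) t) :
    HasDerivAt (fun s => Dv f T (P s))
      (∑ i, if i ∈ T then 0 else P' i * Dv f (insert i T) (P t)) t := by
  unfold Dv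
  have key : ∀ z : ι → Bool, HasDerivAt
      (fun s => ∏ i, if i ∈ T then sg (z i) / 2 else (1 + sg (z i) * P s i) / 2)
      (∑ i, if i ∈ T then 0 else P' i *
        ∏ i', if i' ∈ insert i T then sg (z i') / 2 else (1 + sg (z i') * P t i') / 2) t := by
    intro z
    have := HasDerivAt.fun_finsetProd (u := univ)
      (f := fun i s => if i ∈ T then sg (z i) / 2 else (1 + sg (z i) * P s i) / 2)
      (f' := fun i => if i ∈ T then 0 else sg (z i) * P' i / 2) (x := t) fun i _ => by
        by_cases hi : i ∈ T
        · simp only [hi, if_true]; exact hasDerivAt_const _ _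
        · simp only [hi, if_false]
          exact (((h i hi).const_mul (sg (z i))).const_add 1).div_const 2
    refine this.congr_deriv ?_
    refine Finset.sum_congr rfl fun i _ => ?_
    by_cases hi : i ∈ T
    · simp [hi]
    · simp only [hi, if_false, smul_eq_mul]
      rw [← Finset.mul_prod_erase _ _ (mem_univ i)]
      simp only [mem_insert, true_or, if_true]
      have e : (∏ i' ∈ univ.erase i, if i' = i ∨ i' ∈ T then sg (z i') / 2 else
          (1 + sg (z i') * P t i') / 2) = ∏ i' ∈ univ.erase i, if i' ∈ T then sg (z i') / 2 else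
          (1 + sg (z i') * P t i') / 2 :=
        Finset.prod_congr rfl fun i' hi' => by simp [Finset.ne_of_mem_erase hi']
      rw [e]
      ring
  have := HasDerivAt.fun_sum (u := univ) fun z _ => (key z).const_mul (f z)
  refine this.congr_deriv ?_
  simp only [Finset.mul_sum]
  rw [Finset.sum_comm]
  refine Finset.sum_congr rfl fun i _ => ?_
  by_cases hi : i ∈ T
  · simp [hi]
  · simp only [hi, if_false]
    exact Finset.sum_congr rfl fun z _ => by ring

theorem Dv_char (T T' : Finset ι) (p : ι → ℝ) :
    Dv (fun z => ∏ i ∈ T', sg (z i)) T p =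
      ∏ i, if i ∈ T' then (if i ∈ T then 1 else p i) else (if i ∈ T then 0 else 1) := by
  unfold Dv
  have : ∀ z : ι → Bool, (∏ i ∈ T', sg (z i)) *
      (∏ i, if i ∈ T then sg (z i) / 2 else (1 + sg (z i) * p i) / 2) =
      ∏ i, ((if i ∈ T' then sg (z i) else 1) *
        if i ∈ T then sg (z i) / 2 else (1 + sg (z i) * p i) / 2) := by
    intro z
    rw [Finset.prod_mul_distrib, Finset.prod_ite_mem]
    simp
  simp only [this]
  have h2 := Finset.prod_univ_sum (fun _ : ι => (univ : Finset Bool))
    (fun i b => (if i ∈ T' then sg b else 1) * if i ∈ T then sg b / 2 else (1 + sg b * p i) / 2)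
  rw [Fintype.piFinset_univ] at h2
  rw [← h2]
  refine Finset.prod_congr rfl fun i _ => ?_
  simp only [Fintype.univ_bool, mem_singleton, Bool.true_eq_false, not_false_eq_true,
    sum_insert, sum_singleton, sg]
  split_ifs <;> first | contradiction | (norm_num <;> ring) | ring

theorem Dv_sum {α : Type} (A : Finset α) (c : α → ℝ) (g : α → (ι → Bool) → ℝ) (T : Finset ι)
    (p : ι → ℝ) : Dv (fun z => ∑ a ∈ A, c a * g a z) T p = ∑ a ∈ A, c a * Dv (g a) T p := by
  unfold Dv
  simp only [Finset.sum_mul, Finset.mul_sum]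
  rw [Finset.sum_comm]
  exact Finset.sum_congr rfl fun a _ => Finset.sum_congr rfl fun z _ => by ring

end Stein

end Crest.Agent.R350
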